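import Vale.Agent.P132.Flow.Beta

/-!
# Algebraic properties of the flow
-/

namespace Vale.Agent.P132.Flow

open scoped InnerProductSpace Topology ComplexOrder ComplexConjugate
open Filter Scalar

universe u

variable {H : Type u} [NormedAddCommGroup H] [InnerProductSpace ℂ H] [CompleteSpace H]
  {M : VonNeumannAlgebra H} {Ω : H} {D : ModData M Ω}

/-- A sequence of isometries of weight `c` up to vanishing errors. -/
structure WSeq (M : VonNeumannAlgebra H) (Ω : H) (c : ℝ) (v : ℕ → H →L[ℂ] H) : Prop where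
  small : ∀ δ : ℝ, 0 < δ → ∀ᶠ n in atTop, HasWeight M Ω (v n) c δ
  iso : ∀ n, v n ∈ M ∧ star (v n) * v n = 1

theorem exists_wseq (hb : Base M Ω D) {c : ℝ} (hc : 0 < c) (hc1 : c ≤ 1) :
    ∃ v, WSeq M Ω c v := by
  choose v hv using fun n : ℕ => hb.weights c (1 / ((n : ℝ) + 1)) hc hc1 (by positivity)
  refine ⟨v, fun δ hδ => ?_, fun n => ⟨(hv n).1, (hv n).2.1⟩⟩
  filter_upwards [tendsto_one_div_add_atTop_nhds_zero_nat.eventually (gt_mem_nhds hδ)] with n hn
  exact hasWeight_mono (hv n) hn.le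

theorem eq_of_omega (hb : Base M Ω D) {x y : H →L[ℂ] H} (hx : x ∈ M) (hy : y ∈ M)
    (h : x Ω = y Ω) : x = y :=
  sub_eq_zero.1 (hb.cs.separating _ (sub_mem hx hy) (by rw [sub_apply, h, sub_self]))

variable (hb : Base M Ω D) {a b : H →L[ℂ] H} (ha : InBicentralizer M (vecState Ω) a) {c : ℝ}
  (hc : 0 < c) (hc1 : c ≤ 1)
include hb ha hc hc1

theorem wseq_beta {v : ℕ → H →L[ℂ] H} (hv : WSeq M Ω c v) (x : H) :
    Tendsto (fun n => (star (v n) * a * v n) x) atTop (𝓝 (beta M Ω c a x)) :=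
  tendsto_beta hb ha hc hc1 hv.small hv.iso x

omit hc hc1 in
theorem beta_one : beta M Ω 1 a = a := by
  obtain h1 : WSeq M Ω 1 fun _ => (1 : H →L[ℂ] H) :=
    ⟨fun δ hδ => Eventually.of_forall fun _ =>
      ⟨one_mem M, by simp, fun y _ => by simp; positivity⟩, fun _ => ⟨one_mem M, by simp⟩⟩
  refine ContinuousLinearMap.ext fun x => tendsto_nhds_unique
    (wseq_beta hb ha one_pos le_rfl h1 x) ?_
  simp

theorem beta_add (hb' : InBicentralizer M (vecState Ω) b) :
    beta M Ω c (a + b) = beta M Ω c a + beta M Ω c b := by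
  obtain ⟨v, hv⟩ := exists_wseq hb hc hc1
  refine ContinuousLinearMap.ext fun x => tendsto_nhds_unique
    (wseq_beta hb (hb.closed.add _ _ ha hb') hc hc1 hv x) ?_
  refine ((wseq_beta hb ha hc hc1 hv x).add (wseq_beta hb hb' hc hc1 hv x)).congr fun n => ?_
  simp [mul_add, add_mul]

theorem beta_smul (z : ℂ) : beta M Ω c (z • a) = z • beta M Ω c a := by
  obtain ⟨v, hv⟩ := exists_wseq hb hc hc1
  refine ContinuousLinearMap.ext fun x => tendsto_nhds_unique
    (wseq_beta hb (hb.closed.smul _ _ ha) hc hc1 hv x) ?_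
  refine ((wseq_beta hb ha hc hc1 hv x).const_smul z).congr fun n => ?_
  simp [mul_smul_comm, smul_mul_assoc]

theorem beta_star : beta M Ω c (star a) = star (beta M Ω c a) := by
  obtain ⟨v, hv⟩ := exists_wseq hb hc hc1
  refine ContinuousLinearMap.ext fun x => ext_inner_left ℂ fun w => ?_
  refine tendsto_nhds_unique
    ((tendsto_const_nhds (x := w)).inner (𝕜 := ℂ)
      (wseq_beta hb (hb.closed.star _ ha) hc hc1 hv x)) ?_
  rw [inner_star]
  refine ((wseq_beta hb ha hc hc1 hv w).inner (𝕜 := ℂ) (tendsto_const_nhds (x := x))).congr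
    fun n => ?_
  rw [← inner_star, show star (star (v n) * a * v n) = star (v n) * star a * v n by
    simp [star_mul, mul_assoc]]

theorem beta_bic : InBicentralizer M (vecState Ω) (beta M Ω c a) := by
  have hbM := beta_mem_M hb ha hc hc1
  refine ⟨hbM, fun w hw ⟨C₀, hC₀⟩ hcent => tendsto_of_omega D hb.cs
    (fun n => sub_mem (mul_mem hbM (hw n)) (mul_mem (hw n) hbM))
    ⟨2 * (‖beta M Ω c a‖ * C₀), fun n => ?_⟩ ?_⟩
  · refine (norm_sub_le _ _).trans ?_
    have h1 := (norm_mul_le (beta M Ω c a) (w n)).trans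
      (mul_le_mul_of_nonneg_left (hC₀ n) (norm_nonneg _))
    have h2 := (norm_mul_le (w n) (beta M Ω c a)).trans
      (mul_le_mul_of_nonneg_right (hC₀ n) (norm_nonneg _))
    linarith
  rw [NormedAddGroup.tendsto_nhds_zero]
  intro η hη
  set C := max C₀ 1
  have hC : 0 < C := lt_max_of_lt_right one_pos
  have hwC : ∀ n, ‖w n‖ ≤ C := fun n => (hC₀ n).trans (le_max_left _ _)
  set A := 2 * ‖a‖ + 1 with hA
  have hA0 : 0 < A := by positivity
  -- `X = v* a v` is near `β` on `Ω` and on `w Ω`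
  set ε := min (η / (8 * C)) (η ^ 2 / (256 * C ^ 2 * A)) with hε
  obtain ⟨δ₁, hδ₁, h1⟩ := beta_spec hb ha hc hc1 (η := ε) (by positivity)
  set K := 2 * C * A with hK
  obtain ⟨δ₂, hδ₂, h2⟩ := modulus ha C (η := c * η ^ 2 / (128 * K)) (by positivity)
  set δ := min (min δ₁ (δ₂ / (4 * C))) (c * η ^ 2 / (128 * K ^ 2))
  obtain ⟨v, hv⟩ := hb.weights c δ hc hc1 (by positivity)
  have hδ0 : 0 < δ := by positivity
  have hδ₁' : δ ≤ δ₁ := (min_le_left _ _).trans (min_le_left _ _)
  have hδ₂' : δ ≤ δ₂ / (4 * C) := (min_le_left _ _).trans (min_le_right _ _)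
  have hδ₃ : δ ≤ c * η ^ 2 / (128 * K ^ 2) := min_le_right _ _
  set X := star v * a * v - beta M Ω c a with hX
  have hXM : X ∈ M := sub_mem (mul_mem (mul_mem (star_mem hv.1) ha.1) hv.1) hbM
  have hXn : ‖X‖ ≤ A := by
    refine (norm_sub_le _ _).trans ?_
    linarith [norm_conj_le hv.2.1 a, norm_beta_le hb ha hc hc1]
  have hXO : ‖X Ω‖ ≤ ε := by
    rw [hX, sub_apply]; exact h1 v (hasWeight_mono hv hδ₁')
  filter_upwards [hcent (min (η ^ 2 / (256 * C * A ^ 2)) (δ₂ / 2)) (by positivity)] with n hn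
  have hn1 : Centralises M (vecState Ω) (w n) (η ^ 2 / (256 * C * A ^ 2)) := fun y hy =>
    (hn y hy).trans (mul_le_mul_of_nonneg_right (min_le_left _ _) (norm_nonneg _))
  have hn2 : Centralises M (vecState Ω) (w n) (δ₂ / 2) := fun y hy =>
    (hn y hy).trans (mul_le_mul_of_nonneg_right (min_le_right _ _) (norm_nonneg _))
  have e1 : ‖X (w n Ω)‖ ≤ η / 8 := by
    refine (pow_le_pow_iff_left₀ (norm_nonneg _) (by positivity) two_ne_zero).1 ?_
    refine (norm_sq_cent_le hb.cs (hw n) (hwC n) (by positivity) hn1 hXM).trans ?_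
    calc C ^ 2 * (‖X Ω‖ * ‖X‖) + η ^ 2 / (256 * C * A ^ 2) * C * ‖X‖ ^ 2
        ≤ C ^ 2 * (η ^ 2 / (256 * C ^ 2 * A) * A) + η ^ 2 / (256 * C * A ^ 2) * C * A ^ 2 := by
          gcongr
          exact hXO.trans (min_le_right _ _)
      _ = η ^ 2 / 128 := by field_simp; ring
      _ ≤ (η / 8) ^ 2 := by nlinarith
  have e2 : ‖w n (X Ω)‖ ≤ η / 8 := by
    refine ((w n).le_of_opNorm_le (hwC n) _).trans ?_
    calc C * ‖X Ω‖ ≤ C * (η / (8 * C)) :=
          mul_le_mul_of_nonneg_left (hXO.trans (min_le_left _ _)) hC.le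
      _ = η / 8 := by field_simp
  have hwv : v * w n * star v ∈ M := mul_mem (mul_mem hv.1 (hw n)) (star_mem hv.1)
  have hwn' : ‖v * w n * star v‖ ≤ C :=
    (norm_mul_le_of_le_one' (norm_star_isom hv.2.1)).trans
      ((norm_mul_le_of_le_one (norm_isom_le hv.2.1)).trans (hwC n))
  have hz := h2 _ hwv hwn' fun y hy =>
    ((centralises_conj hc.le hc1 hδ0.le (by positivity) hv (hw n) (hwC n) hn2) y hy).trans
      (mul_le_mul_of_nonneg_right (by
        rw [le_div_iff₀ (by positivity)] at hδ₂'; linarith) (norm_nonneg _))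
  set z := a * (v * w n * star v) - v * w n * star v * a with hzdef
  have hzM : z ∈ M := sub_mem (mul_mem ha.1 hwv) (mul_mem hwv ha.1)
  have hzn : ‖z‖ ≤ K := by
    refine (norm_sub_le _ _).trans ?_
    have t1 := (norm_mul_le a (v * w n * star v)).trans
      (mul_le_mul_of_nonneg_left hwn' (norm_nonneg a))
    have t2 := (norm_mul_le (v * w n * star v) a).trans
      (mul_le_mul_of_nonneg_right hwn' (norm_nonneg a))
    rw [hK, hA]; nlinarith
  have e3 : ‖z (v Ω)‖ ≤ η / 8 := by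
    refine (pow_le_pow_iff_left₀ (norm_nonneg _) (by positivity) two_ne_zero).1 ?_
    refine (norm_sq_weight_le hb.cs hc (hasWeight_mono hv hδ₃) hzM).trans ((div_le_iff₀ hc).2 ?_)
    calc ‖z Ω‖ * ‖z‖ + c * η ^ 2 / (128 * K ^ 2) * ‖z‖ ^ 2
        ≤ c * η ^ 2 / (128 * K) * K + c * η ^ 2 / (128 * K ^ 2) * K ^ 2 := by
          gcongr
      _ = (η / 8) ^ 2 * c := by
          have : K ≠ 0 := ne_of_gt (by positivity)
          field_simp; ring
  have hid : beta M Ω c a * w n - w n * beta M Ω c a =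
      star v * z * v - X * w n + w n * X := by
    have e : star v * z * v = star v * a * v * w n * (star v * v) -
        star v * v * w n * (star v * a * v) := by rw [hzdef]; noncomm_ring
    rw [e, hv.2.1, hX, mul_one, one_mul]; noncomm_ring
  rw [hid, add_apply, sub_apply]
  simp only [mul_apply_eq_comp]
  refine lt_of_le_of_lt (norm_add_le _ _) ?_
  have e4 : ‖star v (z (v Ω))‖ ≤ η / 8 :=
    ((star v).le_of_opNorm_le (norm_star_isom hv.2.1) _).trans (by rw [one_mul]; exact e3)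
  linarith [norm_sub_le (star v (z (v Ω))) (X (w n Ω))]

theorem beta_mul (hb' : InBicentralizer M (vecState Ω) b) :
    beta M Ω c (a * b) = beta M Ω c a * beta M Ω c b := by
  obtain ⟨v, hv⟩ := exists_wseq hb hc hc1
  refine eq_of_omega hb (beta_mem_M hb (hb.closed.mul _ _ ha hb') hc hc1)
    (mul_mem (beta_mem_M hb ha hc hc1) (beta_mem_M hb hb' hc hc1)) ?_
  refine tendsto_nhds_unique (wseq_beta hb (hb.closed.mul _ _ ha hb') hc hc1 hv Ω) ?_
  have hA : Tendsto (fun n => (star (v n) * a * v n) ((star (v n) * b * v n) Ω)) atTop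
      (𝓝 ((beta M Ω c a * beta M Ω c b) Ω)) := by
    have h1 : Tendsto (fun n => (star (v n) * a * v n)
        ((star (v n) * b * v n) Ω - beta M Ω c b Ω)) atTop (𝓝 0) := by
      refine squeeze_zero_norm (fun n => ((star (v n) * a * v n).le_of_opNorm_le
        (norm_conj_le (hv.iso n).2 a) _)) ?_
      simpa using (((tendsto_sub_nhds_zero_iff.2 (wseq_beta hb hb' hc hc1 hv Ω)).norm).const_mul ‖a‖)
    have h2 := h1.add (wseq_beta hb ha hc hc1 hv (beta M Ω c b Ω))
    rw [zero_add] at h2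
    refine h2.congr fun n => ?_
    rw [map_sub, sub_add_cancel]
  have hB : Tendsto (fun n => star (v n) (a ((b * (v n * star (v n)) - v n * star (v n) * b)
      (v n Ω)))) atTop (𝓝 0) := by
    rw [NormedAddGroup.tendsto_nhds_zero]
    intro η hη
    set A := ‖a‖ + 1 with hA'
    set B := 2 * ‖b‖ + 1 with hB'
    obtain ⟨δ₀, hδ₀, hm⟩ := modulus hb' 1 (η := c * η ^ 2 / (8 * A ^ 2 * B)) (by positivity)
    filter_upwards [hv.small (min (δ₀ / 2) (c * η ^ 2 / (8 * A ^ 2 * B ^ 2))) (by positivity)]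
      with n hn
    set w := v n * star (v n) with hw
    have hwn : ‖w‖ ≤ 1 :=
      (norm_mul_le_of_le_one (norm_isom_le hn.2.1)).trans (norm_star_isom hn.2.1)
    have hwM : w ∈ M := mul_mem hn.1 (star_mem hn.1)
    have hcent := centralises_two hb.cs (δ := min (δ₀ / 2) _) (by positivity) (by positivity) hn hn
    have hz := hm w hwM hwn fun y hy => (hcent y hy).trans (mul_le_mul_of_nonneg_right (by
      rw [sub_self, abs_zero]
      linarith [min_le_left (δ₀ / 2) (c * η ^ 2 / (8 * A ^ 2 * B ^ 2))]) (norm_nonneg _))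
    set z := b * w - w * b with hzdef
    have hzM : z ∈ M := sub_mem (mul_mem hb'.1 hwM) (mul_mem hwM hb'.1)
    have hzn : ‖z‖ ≤ B := by
      refine (norm_sub_le _ _).trans ?_
      linarith [norm_mul_le_of_le_one' (a := b) hwn, norm_mul_le_of_le_one (b := b) hwn]
    have e3 : ‖z (v n Ω)‖ ≤ η / (2 * A) := by
      refine (pow_le_pow_iff_left₀ (norm_nonneg _) (by positivity) two_ne_zero).1 ?_
      refine (norm_sq_weight_le hb.cs hc (hasWeight_mono hn (min_le_right _ _)) hzM).trans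
        ((div_le_iff₀ hc).2 ?_)
      calc ‖z Ω‖ * ‖z‖ + c * η ^ 2 / (8 * A ^ 2 * B ^ 2) * ‖z‖ ^ 2
          ≤ c * η ^ 2 / (8 * A ^ 2 * B) * B + c * η ^ 2 / (8 * A ^ 2 * B ^ 2) * B ^ 2 := by gcongr
        _ = (η / (2 * A)) ^ 2 * c := by
            have : A ≠ 0 := ne_of_gt (by positivity)
            have : B ≠ 0 := ne_of_gt (by positivity)
            field_simp; ring
    calc ‖star (v n) (a (z (v n Ω)))‖ ≤ 1 * ‖a (z (v n Ω))‖ :=
          (star (v n)).le_of_opNorm_le (norm_star_isom hn.2.1) _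
      _ ≤ 1 * (A * (η / (2 * A))) := by
          gcongr
          exact (a.le_of_opNorm_le (by linarith) _).trans
            (mul_le_mul_of_nonneg_left e3 (by positivity))
      _ = η / 2 := by
          have : A ≠ 0 := ne_of_gt (by positivity)
          field_simp
      _ < η := half_lt_self hη
  have h := hA.add hB
  rw [add_zero] at h
  refine h.congr fun n => ?_
  have hi := (hv.iso n).2
  simp only [mul_apply_eq_comp, sub_apply, map_sub, star_isom_apply hi]
  abel

theorem beta_comp {e : ℝ} (he : 0 < e) (he1 : e ≤ 1) :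
    beta M Ω c (beta M Ω e a) = beta M Ω (c * e) a := by
  have hbe := beta_bic hb ha he he1
  have hce : 0 < c * e := mul_pos hc he
  have hce1 : c * e ≤ 1 := mul_le_one₀ hc1 he.le he1
  refine eq_of_omega hb (beta_mem_M hb hbe hc hc1) (beta_mem_M hb ha hce hce1) ?_
  refine eq_of_norm_sub_le_zero (le_of_forall_pos_le_add fun η hη => ?_)
  rw [zero_add]
  obtain ⟨δ₁, hδ₁, h1⟩ := beta_spec hb hbe hc hc1 (η := η / 4) (by positivity)
  obtain ⟨δ₂, hδ₂, h2⟩ := beta_spec hb ha hce hce1 (η := η / 4) (by positivity)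
  set A := 2 * ‖a‖ + 1 with hA
  obtain ⟨δ₃, hδ₃, h3⟩ := beta_spec hb ha he he1 (η := c * η ^ 2 / (8 * A)) (by positivity)
  set δ := min (min δ₁ (δ₂ / 2)) (min δ₃ (c * η ^ 2 / (8 * A ^ 2)))
  have hδ0 : 0 < δ := by positivity
  obtain ⟨v, hv⟩ := hb.weights e δ he he1 hδ0
  obtain ⟨w, hw⟩ := hb.weights c δ hc hc1 hδ0
  have hvw : HasWeight M Ω (v * w) (c * e) δ₂ := by
    rw [mul_comm c e]
    refine hasWeight_mono (Scalar.hasWeight_mul he.le hv hw hδ0.le hδ0.le) ?_
    have : δ ≤ δ₂ / 2 := (min_le_left _ _).trans (min_le_right _ _)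
    linarith [mul_le_of_le_one_left hδ0.le he1]
  set z := star v * a * v - beta M Ω e a with hz
  have hzM : z ∈ M := sub_mem (mul_mem (mul_mem (star_mem hv.1) ha.1) hv.1) (beta_mem_M hb ha he he1)
  have hzn : ‖z‖ ≤ A := by
    refine (norm_sub_le _ _).trans ?_
    linarith [norm_conj_le hv.2.1 a, norm_beta_le hb ha he he1]
  have hzO : ‖z Ω‖ ≤ c * η ^ 2 / (8 * A) := by
    rw [hz, sub_apply]
    exact h3 v (hasWeight_mono hv ((min_le_right _ _).trans (min_le_left _ _)))
  have e3 : ‖z (w Ω)‖ ≤ η / 2 := by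
    refine (pow_le_pow_iff_left₀ (norm_nonneg _) (by positivity) two_ne_zero).1 ?_
    refine (norm_sq_weight_le hb.cs hc (hasWeight_mono hw
      ((min_le_right _ _).trans (min_le_right _ _))) hzM).trans ((div_le_iff₀ hc).2 ?_)
    calc ‖z Ω‖ * ‖z‖ + c * η ^ 2 / (8 * A ^ 2) * ‖z‖ ^ 2
        ≤ c * η ^ 2 / (8 * A) * A + c * η ^ 2 / (8 * A ^ 2) * A ^ 2 := by gcongr
      _ = (η / 2) ^ 2 * c := by
          have : A ≠ 0 := ne_of_gt (by positivity)
          field_simp; ring
  have hid : (star (v * w) * a * (v * w)) Ω - (star w * beta M Ω e a * w) Ω = star w (z (w Ω)) := by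
    simp [hz, star_mul]
  have h4 : ‖star w (z (w Ω))‖ ≤ η / 2 :=
    ((star w).le_of_opNorm_le (norm_star_isom hw.2.1) _).trans (by rw [one_mul]; exact e3)
  rw [← hid] at h4
  have t1 := h1 w (hasWeight_mono hw ((min_le_left _ _).trans (min_le_left _ _)))
  have t2 := h2 _ hvw
  set P := beta M Ω c (beta M Ω e a) Ω
  set Q := beta M Ω (c * e) a Ω
  calc ‖P - Q‖ ≤ ‖P - (star w * beta M Ω e a * w) Ω‖ +
        ‖(star w * beta M Ω e a * w) Ω - Q‖ := norm_sub_le_norm_sub_add_norm_sub _ _ _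
    _ ≤ η / 4 + (η / 2 + η / 4) := by
        refine add_le_add (by rw [norm_sub_rev]; exact t1) ?_
        refine (norm_sub_le_norm_sub_add_norm_sub _ ((star (v * w) * a * (v * w)) Ω) _).trans ?_
        exact add_le_add (by rw [norm_sub_rev]; exact h4) t2
    _ = η := by ring

theorem beta_sigma (t : ℝ) :
    beta M Ω c (D.U t * a * D.U (-t)) = D.U t * beta M Ω c a * D.U (-t) := by
  obtain ⟨v, hv⟩ := exists_wseq hb hc hc1
  have hinv : D.U (-t) * D.U t = 1 := by rw [← D.U_add, neg_add_cancel, D.U_zero]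
  have hinv' : D.U t * D.U (-t) = 1 := by rw [← D.U_add, add_neg_cancel, D.U_zero]
  have hs : ∀ x : H →L[ℂ] H, star (D.U t * x * D.U (-t)) = D.U t * star x * D.U (-t) := fun x => by
    rw [star_mul, star_mul, D.U_star, D.U_star, neg_neg, mul_assoc]
  have hmul : ∀ x y : H →L[ℂ] H, D.U t * x * D.U (-t) * (D.U t * y * D.U (-t)) =
      D.U t * (x * y) * D.U (-t) := fun x y => by
    calc _ = D.U t * x * (D.U (-t) * D.U t) * y * D.U (-t) := by noncomm_ring
      _ = _ := by rw [hinv]; noncomm_ring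
  have hunitL : ∀ s, ‖D.U s‖ ≤ 1 := fun s =>
    (D.U s).opNorm_le_bound zero_le_one fun x => by simp [Fixed.norm_U]
  have hv' : WSeq M Ω c fun n => D.U t * v n * D.U (-t) := by
    refine ⟨fun δ hδ => (hv.small δ hδ).mono fun n hn => ⟨D.U_conj t _ hn.1, ?_, fun y hy => ?_⟩,
      fun n => ⟨D.U_conj t _ (hv.iso n).1, ?_⟩⟩
    · rw [hs, hmul, hn.2.1, mul_one, hinv']
    · have hy' : D.U (-t) * y * D.U t ∈ M := by simpa using D.U_conj (-t) y hy
      have h := (hn.2.2 _ hy').trans (mul_le_mul_of_nonneg_left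
        ((norm_mul_le_of_le_one' (hunitL t)).trans (norm_mul_le_of_le_one (hunitL (-t)))) hδ.le)
      refine le_of_eq_of_le ?_ h
      have hl : ∀ ξ : H, ⟪Ω, D.U t ξ⟫_ℂ = ⟪Ω, ξ⟫_ℂ := fun ξ => by
        have := Fixed.inner_U_U D t Ω ξ
        rwa [D.U_omega] at this
      have hl' : ∀ ξ : H, ⟪Ω, D.U (-t) ξ⟫_ℂ = ⟪Ω, ξ⟫_ℂ := fun ξ => by
        have := Fixed.inner_U_U D (-t) Ω ξ
        rwa [D.U_omega] at this
      simp only [mul_apply_eq_comp, D.U_omega, hl, hl']
    · rw [hs, hmul, (hv.iso n).2, mul_one, hinv']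
  refine ContinuousLinearMap.ext fun x => tendsto_nhds_unique
    (wseq_beta hb (hb.closed.sig t a ha) hc hc1 hv' x) ?_
  refine (((D.U t).continuous.tendsto _).comp
    (wseq_beta hb ha hc hc1 hv (D.U (-t) x))).congr fun n => ?_
  simp only [Function.comp_apply, Fixed.sig]
  rw [hs, hmul, hmul]
  rfl

end Vale.Agent.P132.Flow
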