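import Vale.Agent.P132.Iface

/-!
# Strong limits of bounded families in `M` are seen at `Ω`
-/

namespace Vale.Agent.P132.Flow

open scoped InnerProductSpace Topology ComplexOrder ComplexConjugate
open Filter

universe u

variable {H : Type u} [NormedAddCommGroup H] [InnerProductSpace ℂ H] [CompleteSpace H]
  {M : VonNeumannAlgebra H} {Ω : H}

/-- A bounded family in `M` tending to zero at `Ω` tends to zero strongly. -/
theorem tendsto_of_omega {ι : Type*} {l : Filter ι} (D : ModData M Ω) (hΩ : IsCS M Ω)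
    {X : ι → H →L[ℂ] H} (hX : ∀ i, X i ∈ M) (hb : ∃ C, ∀ i, ‖X i‖ ≤ C)
    (h : Tendsto (fun i => X i Ω) l (𝓝 0)) (v : H) :
    Tendsto (fun i => X i v) l (𝓝 0) := by
  obtain ⟨C', hC'⟩ := hb
  obtain ⟨C, hC0, hC⟩ : ∃ C, 0 ≤ C ∧ ∀ i, ‖X i‖ ≤ C :=
    ⟨max C' 0, le_max_right _ _, fun i => (hC' i).trans (le_max_left _ _)⟩
  have hJn : ∀ u, ‖D.J u‖ = ‖u‖ := fun u => by
    rw [norm_eq_sqrt_re_inner (𝕜 := ℂ), norm_eq_sqrt_re_inner (𝕜 := ℂ), D.J_inner]
  have hJsub : ∀ u u', D.J (u - u') = D.J u - D.J u' := fun u u' => by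
    rw [eq_sub_iff_add_eq, ← D.J_add, sub_add_cancel]
  rw [Metric.tendsto_nhds]
  intro ε hε
  obtain ⟨y, hy, hyv⟩ := hΩ.cyclic (D.J v) (ε / (2 * (C + 1))) (by positivity)
  have hd : ‖v - D.J (y Ω)‖ ≤ ε / (2 * (C + 1)) := by
    rw [← hJn, hJsub, D.J_invol, norm_sub_rev]
    exact hyv
  filter_upwards [Metric.tendsto_nhds.1 h (ε / (2 * (‖y‖ + 1))) (by positivity)] with n hn
  rw [dist_zero_right] at hn ⊢
  have e : X n (D.J (y Ω)) = D.J (y (D.J (X n Ω))) := by
    have := D.J_comm (X n) (hX n) y hy Ω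
    rwa [D.J_omega] at this
  have h1 : ‖X n (D.J (y Ω))‖ < ε / 2 := by
    rw [e, hJn]
    refine lt_of_le_of_lt (y.le_opNorm _) ?_
    rw [hJn]
    calc ‖y‖ * ‖X n Ω‖ ≤ ‖y‖ * (ε / (2 * (‖y‖ + 1))) :=
          mul_le_mul_of_nonneg_left hn.le (norm_nonneg y)
      _ < (‖y‖ + 1) * (ε / (2 * (‖y‖ + 1))) :=
          mul_lt_mul_of_pos_right (lt_add_one _) (by positivity)
      _ = ε / 2 := by field_simp
  have h2 : ‖X n (v - D.J (y Ω))‖ ≤ ε / 2 := by
    refine ((X n).le_opNorm _).trans ((mul_le_mul (hC n) hd (norm_nonneg _) hC0).trans ?_)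
    calc C * (ε / (2 * (C + 1))) ≤ (C + 1) * (ε / (2 * (C + 1))) :=
          mul_le_mul_of_nonneg_right (by linarith) (by positivity)
      _ = ε / 2 := by field_simp
  rw [map_sub] at h2
  calc ‖X n v‖ = ‖(X n v - X n (D.J (y Ω))) + X n (D.J (y Ω))‖ := by rw [sub_add_cancel]
    _ ≤ _ := norm_add_le _ _
    _ < ε := by linarith

/-- A bounded sequence in `M` that is Cauchy at `Ω` converges strongly in `M`. -/
theorem exists_strong_lim (D : ModData M Ω) (hΩ : IsCS M Ω) {z : ℕ → H →L[ℂ] H} {C : ℝ}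
    (hz : ∀ n, z n ∈ M) (hb : ∀ n, ‖z n‖ ≤ C) (hc : CauchySeq fun n => z n Ω) :
    ∃ b ∈ M, ‖b‖ ≤ C ∧ ∀ v, Tendsto (fun n => z n v) atTop (𝓝 (b v)) := by
  have hC0 : 0 ≤ C := (norm_nonneg _).trans (hb 0)
  have hd : Tendsto (fun q : ℕ × ℕ => (z q.1 - z q.2) Ω) atTop (𝓝 0) := by
    rw [tendsto_zero_iff_norm_tendsto_zero]
    refine (cauchySeq_iff_tendsto_dist_atTop_0.1 hc).congr fun q => ?_
    rw [dist_eq_norm]; rfl
  have hcv : ∀ v, CauchySeq fun n => z n v := by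
    intro v
    rw [cauchySeq_iff_tendsto_dist_atTop_0]
    have := (tendsto_of_omega D hΩ (fun q : ℕ × ℕ => sub_mem (hz q.1) (hz q.2))
      ⟨C + C, fun q => (norm_sub_le _ _).trans (add_le_add (hb _) (hb _))⟩ hd v).norm
    rw [norm_zero] at this
    refine this.congr fun q => ?_
    rw [dist_eq_norm]; rfl
  choose f hf using fun v => cauchySeq_tendsto_of_complete (hcv v)
  let L : H →ₗ[ℂ] H :=
    { toFun := f
      map_add' := fun u v => tendsto_nhds_unique (hf (u + v))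
        (((hf u).add (hf v)).congr fun n => (map_add (z n) u v).symm)
      map_smul' := fun c v => tendsto_nhds_unique (hf (c • v))
        (((hf v).const_smul c).congr fun n => (map_smul (z n) c v).symm) }
  have hL : ∀ v, ‖L v‖ ≤ C * ‖v‖ := fun v =>
    le_of_tendsto (hf v).norm (Eventually.of_forall fun n =>
      ((z n).le_opNorm v).trans (mul_le_mul_of_nonneg_right (hb n) (norm_nonneg v)))
  refine ⟨L.mkContinuous C hL, ?_, L.mkContinuous_norm_le hC0 hL, hf⟩
  rw [← SetLike.mem_coe, ← VonNeumannAlgebra.centralizer_centralizer M, Set.mem_centralizer_iff]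
  intro y hy
  ext v
  show y (f v) = f (y v)
  refine tendsto_nhds_unique (((y.continuous.tendsto _).comp (hf v)).congr fun n => ?_) (hf (y v))
  exact (congrFun (congrArg DFunLike.coe (Set.mem_centralizer_iff.1 hy (z n) (hz n))) v).symm

end Vale.Agent.P132.Flow
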