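import Vale.Agent.P132.Flow.Est
import Vale.Agent.P132.Flow.Strong
import Vale.Agent.P132.Fixed.Beta

/-!
# The flow on the bicentralizer
-/

namespace Vale.Agent.P132.Flow

open scoped InnerProductSpace Topology ComplexOrder ComplexConjugate
open Filter Scalar

universe u

variable {H : Type u} [NormedAddCommGroup H] [InnerProductSpace ℂ H] [CompleteSpace H]
  {M : VonNeumannAlgebra H} {Ω : H}

open scoped Classical in
/-- The limit of `v* a v` over isometries `v` of weight `c`. -/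
noncomputable def beta (M : VonNeumannAlgebra H) (Ω : H) (c : ℝ) (a : H →L[ℂ] H) : H →L[ℂ] H :=
  if h : ∃ b ∈ M, ‖b‖ ≤ ‖a‖ ∧ ∀ η : ℝ, 0 < η → ∃ δ : ℝ, 0 < δ ∧ ∀ v, HasWeight M Ω v c δ →
      ‖(star v * a * v) Ω - b Ω‖ ≤ η then h.choose else 0

/-- The standing hypotheses. -/
structure Base (M : VonNeumannAlgebra H) (Ω : H) (D : ModData M Ω) : Prop where
  cs : IsCS M Ω
  weights : ∀ c δ : ℝ, 0 < c → c ≤ 1 → 0 < δ → ∃ v, HasWeight M Ω v c δ
  closed : Fixed.Closed M Ω D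

variable {D : ModData M Ω}

theorem hasWeight_mono {v : H →L[ℂ] H} {c δ δ' : ℝ} (h : HasWeight M Ω v c δ) (hd : δ ≤ δ') :
    HasWeight M Ω v c δ' :=
  ⟨h.1, h.2.1, fun y hy => (h.2.2 y hy).trans (mul_le_mul_of_nonneg_right hd (norm_nonneg _))⟩

theorem norm_conj_le {v : H →L[ℂ] H} (hv : star v * v = 1) (a : H →L[ℂ] H) :
    ‖star v * a * v‖ ≤ ‖a‖ :=
  (norm_mul_le_of_le_one' (norm_isom_le hv)).trans (norm_mul_le_of_le_one (norm_star_isom hv))

/-- Two isometries of nearly equal weight compress `a` to nearly the same vector. -/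
theorem diff_small (hcs : IsCS M Ω) {a : H →L[ℂ] H} (ha : InBicentralizer M (vecState Ω) a) {c : ℝ}
    (hc : 0 < c) {η : ℝ} (hη : 0 < η) :
    ∃ δ : ℝ, 0 < δ ∧ ∀ c' v v', |c' - c| ≤ δ → HasWeight M Ω v c δ → HasWeight M Ω v' c' δ →
      ‖(star v' * a * v') Ω - (star v * a * v) Ω‖ ≤ η := by
  set A := ‖a‖ + 1 with hA
  have hA0 : 0 < A := by positivity
  obtain ⟨δ₀, hδ₀, hmod⟩ := modulus ha 1 (η := c * η ^ 2 / (4 * A)) (by positivity)
  refine ⟨min (δ₀ / 3) (c * η ^ 2 / (8 * A ^ 2)), by positivity, fun c' v v' hcc hv hv' => ?_⟩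
  set δ := min (δ₀ / 3) (c * η ^ 2 / (8 * A ^ 2)) with hδ
  have hδ0 : 0 < δ := by positivity
  have hδ3 : δ ≤ δ₀ / 3 := min_le_left _ _
  have hδ8 : δ ≤ c * η ^ 2 / (8 * A ^ 2) := min_le_right _ _
  have hcent := centralises_two hcs hδ0.le hδ0.le hv hv'
  have hwn : ‖v' * star v‖ ≤ 1 :=
    (norm_mul_le_of_le_one (norm_isom_le hv'.2.1)).trans (norm_star_isom hv.2.1)
  have hsm := hmod _ (mul_mem hv'.1 (star_mem hv.1)) hwn fun y hy => (hcent y hy).trans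
    (mul_le_mul_of_nonneg_right (by rw [abs_sub_comm] at hcc; linarith) (norm_nonneg _))
  set z := a * (v' * star v) - v' * star v * a with hz
  have hzM : z ∈ M := sub_mem (mul_mem ha.1 (mul_mem hv'.1 (star_mem hv.1)))
    (mul_mem (mul_mem hv'.1 (star_mem hv.1)) ha.1)
  have hzn : ‖z‖ ≤ 2 * A := by
    refine (norm_sub_le _ _).trans ?_
    have := norm_mul_le_of_le_one' (a := a) hwn
    have := norm_mul_le_of_le_one (b := a) hwn
    linarith
  have hkey : star v' * z * v = star v' * a * v' - star v * a * v := by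
    have e : star v' * z * v = star v' * a * v' * (star v * v) -
        star v' * v' * (star v * a * v) := by rw [hz]; noncomm_ring
    rw [e, hv.2.1, hv'.2.1, mul_one, one_mul]
  have hsq := norm_sq_weight_le hcs hc hv hzM
  have h1 : ‖z (v Ω)‖ ^ 2 ≤ η ^ 2 := by
    refine hsq.trans ((div_le_iff₀ hc).2 ?_)
    calc ‖z Ω‖ * ‖z‖ + δ * ‖z‖ ^ 2
        ≤ c * η ^ 2 / (4 * A) * (2 * A) + c * η ^ 2 / (8 * A ^ 2) * (2 * A) ^ 2 := by
          gcongr
      _ = η ^ 2 * c := by field_simp; ring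
  rw [← sub_apply, ← hkey]
  simp only [mul_apply_eq_comp]
  refine ((star v').le_of_opNorm_le (norm_star_isom hv'.2.1) _).trans ?_
  rw [one_mul]
  exact pow_le_pow_iff_left₀ (norm_nonneg _) hη.le two_ne_zero |>.1 h1

variable (hb : Base M Ω D) {a : H →L[ℂ] H} (ha : InBicentralizer M (vecState Ω) a) {c : ℝ}
  (hc : 0 < c) (hc1 : c ≤ 1)
include hb ha hc hc1

theorem exists_beta : ∃ b ∈ M, ‖b‖ ≤ ‖a‖ ∧ ∀ η : ℝ, 0 < η → ∃ δ : ℝ, 0 < δ ∧
    ∀ v, HasWeight M Ω v c δ → ‖(star v * a * v) Ω - b Ω‖ ≤ η := by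
  choose v hv using fun n : ℕ => hb.weights c (1 / ((n : ℝ) + 1)) hc hc1 (by positivity)
  have hsmall : ∀ δ : ℝ, 0 < δ → ∀ᶠ n : ℕ in atTop, HasWeight M Ω (v n) c δ := fun δ hδ => by
    filter_upwards [tendsto_one_div_add_atTop_nhds_zero_nat.eventually (gt_mem_nhds hδ)] with n hn
    exact hasWeight_mono (hv n) hn.le
  have hcau : CauchySeq fun n => (star (v n) * a * v n) Ω := by
    rw [Metric.cauchySeq_iff]
    intro η hη
    obtain ⟨δ, hδ, hd⟩ := diff_small hb.cs ha hc (half_pos hη)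
    obtain ⟨N, hN⟩ := eventually_atTop.1 (hsmall δ hδ)
    refine ⟨N, fun m hm n hn => ?_⟩
    rw [dist_eq_norm]
    exact (hd c _ _ (by simpa using hδ.le) (hN n hn) (hN m hm)).trans_lt (half_lt_self hη)
  obtain ⟨b, hbM, hbn, hlim⟩ := exists_strong_lim D hb.cs (C := ‖a‖)
    (fun n => mul_mem (mul_mem (star_mem (hv n).1) ha.1) (hv n).1)
    (fun n => norm_conj_le (hv n).2.1 a) hcau
  refine ⟨b, hbM, hbn, fun η hη => ?_⟩
  obtain ⟨δ, hδ, hd⟩ := diff_small hb.cs ha hc hη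
  refine ⟨δ, hδ, fun w hw => le_of_tendsto ((hlim Ω).const_sub _).norm ?_⟩
  filter_upwards [hsmall δ hδ] with n hn
  exact hd c _ _ (by simpa using hδ.le) hn hw

theorem beta_prop : beta M Ω c a ∈ M ∧ ‖beta M Ω c a‖ ≤ ‖a‖ ∧ ∀ η : ℝ, 0 < η →
    ∃ δ : ℝ, 0 < δ ∧ ∀ v, HasWeight M Ω v c δ → ‖(star v * a * v) Ω - beta M Ω c a Ω‖ ≤ η := by
  rw [beta, dif_pos (exists_beta hb ha hc hc1)]
  exact (exists_beta hb ha hc hc1).choose_spec

theorem beta_mem_M : beta M Ω c a ∈ M := (beta_prop hb ha hc hc1).1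

theorem norm_beta_le : ‖beta M Ω c a‖ ≤ ‖a‖ := (beta_prop hb ha hc hc1).2.1

theorem beta_spec {η : ℝ} (hη : 0 < η) : ∃ δ : ℝ, 0 < δ ∧
    ∀ v, HasWeight M Ω v c δ → ‖(star v * a * v) Ω - beta M Ω c a Ω‖ ≤ η :=
  (beta_prop hb ha hc hc1).2.2 η hη

theorem beta_near {η : ℝ} (hη : 0 < η) : ∃ δ : ℝ, 0 < δ ∧ ∀ c' v', |c' - c| ≤ δ →
    HasWeight M Ω v' c' δ → ‖(star v' * a * v') Ω - beta M Ω c a Ω‖ ≤ η := by
  obtain ⟨δ₁, hδ₁, h1⟩ := diff_small hb.cs ha hc (half_pos hη)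
  obtain ⟨δ₂, hδ₂, h2⟩ := beta_spec hb ha hc hc1 (half_pos hη)
  refine ⟨δ₁, hδ₁, fun c' v' hcc hv' => ?_⟩
  obtain ⟨v, hv⟩ := hb.weights c (min δ₁ δ₂) hc hc1 (lt_min hδ₁ hδ₂)
  refine (norm_sub_le_norm_sub_add_norm_sub _ ((star v * a * v) Ω) _).trans ?_
  linarith [h1 c' v v' hcc (hasWeight_mono hv (min_le_left _ _)) hv',
    h2 v (hasWeight_mono hv (min_le_right _ _))]

omit hc hc1 in
theorem cont_beta : ContinuousOn (fun c => beta M Ω c a Ω) (Set.Ioc (0 : ℝ) 1) := by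
  rw [Metric.continuousOn_iff]
  intro c hc η hη
  obtain ⟨δ, hδ, hd⟩ := beta_near hb ha hc.1 hc.2 (half_pos hη)
  refine ⟨δ, hδ, fun c' hc' hcc => ?_⟩
  rw [Real.dist_eq] at hcc
  obtain ⟨δ₂, hδ₂, h2⟩ := beta_spec hb ha hc'.1 hc'.2 (half_pos (half_pos hη))
  obtain ⟨v, hv⟩ := hb.weights c' (min δ δ₂) hc'.1 hc'.2 (lt_min hδ hδ₂)
  rw [dist_eq_norm]
  have h4 := norm_sub_le_norm_sub_add_norm_sub (beta M Ω c' a Ω) ((star v * a * v) Ω)
    (beta M Ω c a Ω)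
  linarith [norm_sub_rev (beta M Ω c' a Ω) ((star v * a * v) Ω), hd c' v hcc.le (hasWeight_mono hv (min_le_left _ _)),
    h2 v (hasWeight_mono hv (min_le_right _ _))]

theorem tendsto_beta {v : ℕ → H →L[ℂ] H}
    (hv : ∀ δ : ℝ, 0 < δ → ∀ᶠ n in atTop, HasWeight M Ω (v n) c δ)
    (hvM : ∀ n, v n ∈ M ∧ star (v n) * v n = 1) (x : H) :
    Tendsto (fun n => (star (v n) * a * v n) x) atTop (𝓝 (beta M Ω c a x)) := by
  rw [← tendsto_sub_nhds_zero_iff]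
  simp only [← sub_apply]
  refine tendsto_of_omega D hb.cs
    (fun n => sub_mem (mul_mem (mul_mem (star_mem (hvM n).1) ha.1) (hvM n).1)
      (beta_mem_M hb ha hc hc1)) ⟨2 * ‖a‖, fun n => ?_⟩ ?_ x
  · refine (norm_sub_le _ _).trans ?_
    linarith [norm_conj_le (hvM n).2 a, norm_beta_le hb ha hc hc1]
  · rw [NormedAddGroup.tendsto_nhds_zero]
    intro η hη
    obtain ⟨δ, hδ, h⟩ := beta_spec hb ha hc hc1 (half_pos hη)
    filter_upwards [hv δ hδ] with n hn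
    rw [sub_apply]
    exact (h _ hn).trans_lt (half_lt_self hη)

end Vale.Agent.P132.Flow
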