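import Vale.Agent.P132.Flow.Strong

/-!
# The bicentralizer is a norm closed star algebra invariant under the modular group

Only the vector `Ω` has to be tested for strong convergence. For `star` the three terms of
`‖(a* h - h a*) Ω‖²` all approach `φ (h² a a*)`.
-/

namespace Vale.Agent.P132.Flow

open scoped InnerProductSpace Topology ComplexOrder ComplexConjugate
open Filter

universe u

variable {H : Type u} [NormedAddCommGroup H] [InnerProductSpace ℂ H] [CompleteSpace H]
  {M : VonNeumannAlgebra H} {Ω : H}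

/-- A bounded sequence in `M` that asymptotically centralises the vector state. -/
structure Seq (M : VonNeumannAlgebra H) (Ω : H) (w : ℕ → H →L[ℂ] H) : Prop where
  mem : ∀ n, w n ∈ M
  bdd : ∃ C, ∀ n, ‖w n‖ ≤ C
  cent : ∀ δ : ℝ, 0 < δ → ∀ᶠ n in atTop, Centralises M (vecState Ω) (w n) δ

theorem inner_star_left (x : H →L[ℂ] H) (v w : H) : ⟪star x v, w⟫_ℂ = ⟪v, x w⟫_ℂ := by
  rw [ContinuousLinearMap.star_eq_adjoint, ContinuousLinearMap.adjoint_inner_left]

theorem vecState_star (x : H →L[ℂ] H) :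
    vecState Ω (star x) = conj (vecState Ω x) := by
  show ⟪Ω, star x Ω⟫_ℂ = conj ⟪Ω, x Ω⟫_ℂ
  rw [inner_conj_symm, ← inner_star_left (star x), star_star]

theorem Seq.tendsto_apply {w : ℕ → H →L[ℂ] H} (hw : Seq M Ω w) {a : H →L[ℂ] H}
    (ha : InBicentralizer M (vecState Ω) a) (v : H) :
    Tendsto (fun n => (a * w n - w n * a) v) atTop (𝓝 0) :=
  ha.2 w hw.mem hw.bdd hw.cent v

/-- A centralising sequence almost commutes with bounded sequences under the state. -/
theorem Seq.tendsto_state {w : ℕ → H →L[ℂ] H} (hw : Seq M Ω w) {X : ℕ → H →L[ℂ] H}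
    (hX : ∀ n, X n ∈ M) {K : ℝ} (hK : ∀ n, ‖X n‖ ≤ K) :
    Tendsto (fun n => vecState Ω (X n * w n) - vecState Ω (w n * X n)) atTop (𝓝 0) := by
  have hK0 : 0 ≤ K := (norm_nonneg _).trans (hK 0)
  rw [Metric.tendsto_nhds]
  intro ε hε
  filter_upwards [hw.cent (ε / (K + 1)) (by positivity)] with n hn
  rw [dist_zero_right]
  refine lt_of_le_of_lt ((hn (X n) (hX n)).trans (mul_le_mul_of_nonneg_left (hK n) (by positivity))) ?_
  rw [div_mul_eq_mul_div, div_lt_iff₀ (by positivity)]
  nlinarith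

theorem Seq.starred {w : ℕ → H →L[ℂ] H} (hw : Seq M Ω w) : Seq M Ω fun n => star (w n) := by
  refine ⟨fun n => star_mem (hw.mem n), ?_, fun δ hδ => (hw.cent δ hδ).mono fun n hn y hy => ?_⟩
  · obtain ⟨C, hC⟩ := hw.bdd
    exact ⟨C, fun n => (norm_star _).trans_le (hC n)⟩
  · have h := hn (star y) (star_mem hy)
    rw [norm_star] at h
    have e1 : y * Star.star (w n) = Star.star (w n * Star.star y) := by rw [star_mul, star_star]
    have e2 : Star.star (w n) * y = Star.star (Star.star y * w n) := by rw [star_mul, star_star]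
    rw [e1, e2, vecState_star, vecState_star, ← map_sub, Complex.norm_conj, norm_sub_rev]
    exact h

theorem Seq.add {v w : ℕ → H →L[ℂ] H} (hv : Seq M Ω v) (hw : Seq M Ω w) :
    Seq M Ω fun n => v n + w n := by
  refine ⟨fun n => add_mem (hv.mem n) (hw.mem n), ?_, fun δ hδ => ?_⟩
  · obtain ⟨C, hC⟩ := hv.bdd
    obtain ⟨C', hC'⟩ := hw.bdd
    exact ⟨C + C', fun n => (norm_add_le _ _).trans (add_le_add (hC n) (hC' n))⟩
  · filter_upwards [hv.cent (δ / 2) (by positivity), hw.cent (δ / 2) (by positivity)] with n h1 h2 y hy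
    rw [mul_add, add_mul, map_add, map_add, add_sub_add_comm]
    refine (norm_add_le _ _).trans ((add_le_add (h1 y hy) (h2 y hy)).trans_eq ?_)
    ring

theorem Seq.smul {w : ℕ → H →L[ℂ] H} (hw : Seq M Ω w) (z : ℂ) :
    Seq M Ω fun n => z • w n := by
  refine ⟨fun n => M.toStarSubalgebra.smul_mem (hw.mem n) z, ?_, fun δ hδ => ?_⟩
  · obtain ⟨C, hC⟩ := hw.bdd
    exact ⟨‖z‖ * C, fun n => (norm_smul_le _ _).trans
      (mul_le_mul_of_nonneg_left (hC n) (norm_nonneg z))⟩
  · filter_upwards [hw.cent (δ / (‖z‖ + 1)) (by positivity)] with n h y hy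
    rw [mul_smul_comm, smul_mul_assoc, map_smul, map_smul, ← smul_sub, norm_smul]
    refine (mul_le_mul_of_nonneg_left (h y hy) (norm_nonneg z)).trans ?_
    rw [← mul_assoc]
    refine mul_le_mul_of_nonneg_right ?_ (norm_nonneg y)
    rw [mul_div_assoc', div_le_iff₀ (by positivity)]
    nlinarith [norm_nonneg z]

theorem Seq.mul {v w : ℕ → H →L[ℂ] H} (hv : Seq M Ω v) (hw : Seq M Ω w) :
    Seq M Ω fun n => v n * w n := by
  obtain ⟨C, hC⟩ := hv.bdd
  obtain ⟨C', hC'⟩ := hw.bdd
  have hC0 : 0 ≤ C := (norm_nonneg _).trans (hC 0)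
  have hC0' : 0 ≤ C' := (norm_nonneg _).trans (hC' 0)
  refine ⟨fun n => mul_mem (hv.mem n) (hw.mem n), ⟨C * C', fun n =>
    (norm_mul_le _ _).trans (mul_le_mul (hC n) (hC' n) (norm_nonneg _) hC0)⟩, fun δ hδ => ?_⟩
  filter_upwards [hv.cent (δ / (C + C' + 1)) (by positivity),
    hw.cent (δ / (C + C' + 1)) (by positivity)] with n h1 h2 y hy
  have e : vecState Ω (y * (v n * w n)) - vecState Ω (v n * w n * y) =
      (vecState Ω (y * v n * w n) - vecState Ω (w n * (y * v n))) +
        (vecState Ω (w n * y * v n) - vecState Ω (v n * (w n * y))) := by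
    simp only [mul_assoc]
    ring
  rw [e]
  refine (norm_add_le _ _).trans ((add_le_add (h2 _ (mul_mem hy (hv.mem n)))
    (h1 _ (mul_mem (hw.mem n) hy))).trans ?_)
  calc δ / (C + C' + 1) * ‖y * v n‖ + δ / (C + C' + 1) * ‖w n * y‖
      ≤ δ / (C + C' + 1) * (‖y‖ * C) + δ / (C + C' + 1) * (C' * ‖y‖) := by
        refine add_le_add (mul_le_mul_of_nonneg_left ?_ (by positivity))
          (mul_le_mul_of_nonneg_left ?_ (by positivity))
        · exact (norm_mul_le _ _).trans (mul_le_mul_of_nonneg_left (hC n) (norm_nonneg y))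
        · exact (norm_mul_le _ _).trans (mul_le_mul_of_nonneg_right (hC' n) (norm_nonneg y))
    _ = (C + C') / (C + C' + 1) * (δ * ‖y‖) := by ring
    _ ≤ 1 * (δ * ‖y‖) := mul_le_mul_of_nonneg_right
        ((div_le_one (by positivity)).2 (by linarith)) (by positivity)
    _ = δ * ‖y‖ := one_mul _

/-- A selfadjoint centralising sequence almost commutes with `star a` at `Ω`. -/
theorem star_omega {a : H →L[ℂ] H} (ha : InBicentralizer M (vecState Ω) a)
    {h : ℕ → H →L[ℂ] H} (hh : Seq M Ω h) (hs : ∀ n, IsSelfAdjoint (h n)) :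
    Tendsto (fun n => (Star.star a * h n - h n * Star.star a) Ω) atTop (𝓝 0) := by
  set b : H →L[ℂ] H := Star.star a with hb
  have hbM : b ∈ M := star_mem ha.1
  have hab : a * b ∈ M := mul_mem ha.1 hbM
  obtain ⟨C, hC⟩ := hh.bdd
  have hC0 : 0 ≤ C := (norm_nonneg _).trans (hC 0)
  have hsq : Seq M Ω fun n => h n * h n := hh.mul hh
  have sym : ∀ n (u v : H), ⟪h n u, v⟫_ℂ = ⟪u, h n v⟫_ℂ := fun n u v => by
    conv_lhs => rw [← (hs n).star_eq, inner_star_left]
  set Q : ℕ → ℂ := fun n => vecState Ω (h n * h n * (a * b)) with hQ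
  have t1 : Tendsto (fun n => ⟪b (h n Ω), b (h n Ω)⟫_ℂ - Q n) atTop (𝓝 0) := by
    have h1 := hh.tendsto_state (X := fun n => a * b * h n) (fun n => mul_mem hab (hh.mem n))
      (K := ‖a * b‖ * C)
      (fun n => (norm_mul_le _ _).trans (mul_le_mul_of_nonneg_left (hC n) (norm_nonneg _)))
    have h2 := hsq.tendsto_state (X := fun _ => a * b) (fun _ => hab) (K := ‖a * b‖) (fun _ => le_rfl)
    have := h2.sub h1
    rw [sub_zero] at this
    refine this.congr fun n => ?_
    have e : vecState Ω (h n * (a * b * h n)) = ⟪b (h n Ω), b (h n Ω)⟫_ℂ := by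
      show ⟪Ω, h n (a (b (h n Ω)))⟫_ℂ = _
      rw [← sym, ← inner_star_left, hb]
    rw [← e, hQ]
    simp only [mul_assoc]
    ring
  have t2 : Tendsto (fun n => ⟪h n (b Ω), h n (b Ω)⟫_ℂ - Q n) atTop (𝓝 0) := by
    have h1 := (tendsto_const_nhds (x := Ω)).inner (𝕜 := ℂ) (hsq.tendsto_apply ha (b Ω))
    rw [inner_zero_right] at h1
    refine h1.congr fun n => ?_
    show ⟪Ω, a (h n (h n (b Ω))) - h n (h n (a (b Ω)))⟫_ℂ = _ - ⟪Ω, h n (h n (a (b Ω)))⟫_ℂ
    rw [inner_sub_right, sym n (b Ω), hb, inner_star_left]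
  have t3 : Tendsto (fun n => ⟪b (h n Ω), h n (b Ω)⟫_ℂ - Q n) atTop (𝓝 0) := by
    have h1 := hh.tendsto_apply ha (b Ω)
    rw [tendsto_zero_iff_norm_tendsto_zero] at h1 ⊢
    refine squeeze_zero (fun n => norm_nonneg _) (fun n => ?_)
      (by simpa using h1.const_mul (C * ‖Ω‖))
    have e : ⟪b (h n Ω), h n (b Ω)⟫_ℂ - Q n = ⟪h n Ω, (a * h n - h n * a) (b Ω)⟫_ℂ := by
      show _ - ⟪Ω, h n (h n (a (b Ω)))⟫_ℂ = ⟪h n Ω, a (h n (b Ω)) - h n (a (b Ω))⟫_ℂ
      rw [inner_sub_right, sym n Ω, sym n Ω, hb, inner_star_left, sym n Ω]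
    rw [e]
    refine (norm_inner_le_norm _ _).trans (mul_le_mul_of_nonneg_right ?_ (norm_nonneg _))
    exact ((h n).le_opNorm _).trans (mul_le_mul_of_nonneg_right (hC n) (norm_nonneg _))
  have key := (Complex.continuous_re.tendsto 0).comp ((t1.add t2).sub (t3.add t3) |>.congr'
    (Eventually.of_forall fun n => rfl) |> fun t => by simpa using t)
  rw [Complex.zero_re] at key
  have hsqn : Tendsto (fun n => ‖(b * h n - h n * b) Ω‖ ^ 2) atTop (𝓝 0) := by
    refine key.congr fun n => ?_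
    show _ = ‖b (h n Ω) - h n (b Ω)‖ ^ 2
    rw [@norm_sub_sq ℂ]
    simp only [Function.comp_apply, Complex.sub_re, Complex.add_re, RCLike.re_to_complex]
    simp only [← Complex.ofReal_pow, Complex.ofReal_re]
    ring
  rw [tendsto_zero_iff_norm_tendsto_zero]
  have := (Real.continuous_sqrt.tendsto 0).comp hsqn
  rw [Real.sqrt_zero] at this
  exact this.congr fun n => Real.sqrt_sq (norm_nonneg _)

theorem bic_star (D : ModData M Ω) (hΩ : IsCS M Ω) {a : H →L[ℂ] H}
    (ha : InBicentralizer M (vecState Ω) a) : InBicentralizer M (vecState Ω) (Star.star a) := by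
  refine ⟨star_mem ha.1, fun w h1 h2 h3 v => ?_⟩
  have hw : Seq M Ω w := ⟨h1, h2, h3⟩
  obtain ⟨C, hC⟩ := h2
  refine tendsto_of_omega D hΩ (fun n => sub_mem (mul_mem (star_mem ha.1) (h1 n))
    (mul_mem (h1 n) (star_mem ha.1))) ⟨2 * ‖a‖ * C, fun n => ?_⟩ ?_ v
  · refine (norm_sub_le _ _).trans ((add_le_add (norm_mul_le _ _) (norm_mul_le _ _)).trans ?_)
    rw [norm_star]
    nlinarith [hC n, norm_nonneg a, norm_nonneg (w n)]
  · set hr : ℕ → H →L[ℂ] H := fun n => w n + Star.star (w n) with hhr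
    set hi : ℕ → H →L[ℂ] H := fun n => Complex.I • w n + Star.star (Complex.I • w n) with hhi
    have hrs : Seq M Ω hr := hw.add hw.starred
    have his : Seq M Ω hi := (hw.smul Complex.I).add (hw.smul Complex.I).starred
    have r1 := star_omega ha hrs fun n => IsSelfAdjoint.add_star_self (w n)
    have r2 := star_omega ha his fun n => IsSelfAdjoint.add_star_self (Complex.I • w n)
    have := (r1.sub (r2.const_smul Complex.I)).const_smul (1 / 2 : ℂ)
    rw [smul_zero, sub_zero, smul_zero] at this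
    refine this.congr fun n => ?_
    have e : (2 : ℂ) • w n = hr n - Complex.I • hi n := by
      simp only [hhr, hhi, star_smul, Complex.star_def, Complex.conj_I, smul_add, neg_smul,
        smul_neg, smul_smul, Complex.I_mul_I, one_smul, neg_neg, two_smul]
      abel
    have ew : w n = (1 / 2 : ℂ) • (hr n - Complex.I • hi n) := by
      rw [← e, smul_smul]; norm_num
    rw [ew]
    simp only [mul_smul_comm, smul_mul_assoc, mul_sub, sub_mul, smul_sub,
      sub_apply, smul_apply]
    abel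

/-- `Iface.StmtBic`. -/
theorem stmtBic : Iface.StmtBic.{u} := by
  intro H _ _ _ M Ω D hΩ
  refine ⟨?_, ?_, fun a ha => bic_star D hΩ ha, fun a ha b hb => ⟨?_, ?_⟩, fun z a ha => ?_,
    fun t a ha => ?_⟩
  · refine isClosed_of_closure_subset fun a ha => ?_
    have hM : IsClosed (M : Set (H →L[ℂ] H)) := by
      rw [← VonNeumannAlgebra.centralizer_centralizer M]
      exact Set.isClosed_centralizer _
    refine ⟨closure_minimal (fun x hx => hx.1) hM ha, fun w h1 h2 h3 v => ?_⟩
    obtain ⟨C, hC⟩ := h2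
    have hC0 : 0 ≤ C := (norm_nonneg _).trans (hC 0)
    rw [Metric.tendsto_nhds]
    intro ε hε
    obtain ⟨b, hb, hab⟩ := Metric.mem_closure_iff.1 ha (ε / (4 * (C * ‖v‖ + 1))) (by positivity)
    rw [dist_eq_norm] at hab
    filter_upwards [Metric.tendsto_nhds.1 (hb.2 w h1 ⟨C, hC⟩ h3 v) (ε / 2) (by positivity)] with n hn
    rw [dist_zero_right] at hn ⊢
    have h4 : ‖((a - b) * w n - w n * (a - b)) v‖ ≤ ε / 2 := by
      refine (ContinuousLinearMap.le_opNorm _ _).trans ?_
      calc ‖(a - b) * w n - w n * (a - b)‖ * ‖v‖ ≤ (‖a - b‖ * C + C * ‖a - b‖) * ‖v‖ := by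
            refine mul_le_mul_of_nonneg_right ((norm_sub_le _ _).trans (add_le_add
              ((norm_mul_le _ _).trans (mul_le_mul_of_nonneg_left (hC n) (norm_nonneg _)))
              ((norm_mul_le _ _).trans (mul_le_mul_of_nonneg_right (hC n) (norm_nonneg _)))))
              (norm_nonneg v)
        _ = 2 * ‖a - b‖ * (C * ‖v‖) := by ring
        _ ≤ 2 * (ε / (4 * (C * ‖v‖ + 1))) * (C * ‖v‖ + 1) :=
            mul_le_mul (by linarith) (by linarith) (by positivity) (by positivity)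
        _ = ε / 2 := by field_simp; norm_num
    have e : (a * w n - w n * a) v =
        ((a - b) * w n - w n * (a - b)) v + (b * w n - w n * b) v := by
      rw [← add_apply]
      congr 1
      noncomm_ring
    rw [e]
    exact lt_of_le_of_lt (norm_add_le _ _) (by linarith)
  · exact ⟨one_mem M, fun w _ _ _ v => by simp⟩
  · refine ⟨add_mem ha.1 hb.1, fun w h1 h2 h3 v => ?_⟩
    have := (ha.2 w h1 h2 h3 v).add (hb.2 w h1 h2 h3 v)
    rw [add_zero] at this
    refine this.congr fun n => ?_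
    rw [← add_apply]
    congr 1
    noncomm_ring
  · refine ⟨mul_mem ha.1 hb.1, fun w h1 h2 h3 v => ?_⟩
    have := ((a.continuous.tendsto 0).comp (hb.2 w h1 h2 h3 v)).add (ha.2 w h1 h2 h3 (b v))
    rw [map_zero, add_zero] at this
    refine this.congr fun n => ?_
    simp [mul_apply_eq_comp, map_sub]
  · refine ⟨M.toStarSubalgebra.smul_mem ha.1 z, fun w h1 h2 h3 v => ?_⟩
    have := (ha.2 w h1 h2 h3 v).const_smul z
    rw [smul_zero] at this
    refine this.congr fun n => ?_
    simp [mul_apply_eq_comp, smul_sub]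
  · refine ⟨D.U_conj t a ha.1, fun w h1 h2 h3 v => ?_⟩
    obtain ⟨C, hC⟩ := h2
    have hUn : ∀ s u, ‖D.U s u‖ = ‖u‖ := fun s u => by
      have e : star (D.U s) (D.U s u) = u := by
        rw [D.U_star, ← mul_apply_eq_comp, ← D.U_add, neg_add_cancel, D.U_zero]; rfl
      rw [norm_eq_sqrt_re_inner (𝕜 := ℂ), norm_eq_sqrt_re_inner (𝕜 := ℂ), ← inner_star_left, e]
    have hUle : ∀ s, ‖D.U s‖ ≤ 1 := fun s =>
      ContinuousLinearMap.opNorm_le_bound _ zero_le_one fun u => by simp [hUn]
    have hmem : ∀ n, D.U (-t) * w n * D.U t ∈ M := fun n => by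
      simpa using D.U_conj (-t) (w n) (h1 n)
    have hb : ∀ n, ‖D.U (-t) * w n * D.U t‖ ≤ C := fun n => by
      refine (norm_mul₃_le).trans ?_
      exact (mul_le_of_le_one_right (by positivity) (hUle t)).trans
        ((mul_le_of_le_one_left (norm_nonneg _) (hUle (-t))).trans (hC n))
    have hUU : ∀ r s u, D.U r (D.U s u) = D.U (r + s) u := fun r s u => by rw [D.U_add]; rfl
    have hφ : ∀ x : H →L[ℂ] H, vecState Ω (D.U t * x * D.U (-t)) = vecState Ω x := fun x => by
      show ⟪Ω, D.U t (x (D.U (-t) Ω))⟫_ℂ = ⟪Ω, x Ω⟫_ℂ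
      rw [D.U_omega, ← inner_star_left, D.U_star, D.U_omega]
    have hseq : ∀ δ : ℝ, 0 < δ → ∀ᶠ n in atTop,
        Centralises M (vecState Ω) (D.U (-t) * w n * D.U t) δ := fun δ hδ =>
      (h3 δ hδ).mono fun n hn y hy => by
        have h4 := hn (D.U t * y * D.U (-t)) (D.U_conj t y hy)
        have e1 : D.U t * (y * (D.U (-t) * w n * D.U t)) * D.U (-t) =
            D.U t * y * D.U (-t) * w n := by
          ext u; simp [mul_apply_eq_comp, hUU, D.U_zero]
        have e2 : D.U t * (D.U (-t) * w n * D.U t * y) * D.U (-t) =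
            w n * (D.U t * y * D.U (-t)) := by
          ext u; simp [mul_apply_eq_comp, hUU, D.U_zero]
        rw [← hφ (y * _), ← hφ (_ * y), e1, e2]
        refine h4.trans (mul_le_mul_of_nonneg_left ?_ hδ.le)
        refine (norm_mul₃_le).trans ?_
        exact (mul_le_of_le_one_right (by positivity) (hUle (-t))).trans
          (mul_le_of_le_one_left (norm_nonneg _) (hUle t))
    have h4 := ha.2 _ hmem ⟨C, hb⟩ hseq (D.U (-t) v)
    have h5 := ((D.U t).continuous.tendsto 0).comp h4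
    rw [map_zero] at h5
    refine h5.congr fun n => ?_
    simp [mul_apply_eq_comp, map_sub, hUU, D.U_zero]

end Vale.Agent.P132.Flow
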