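import Vale.Agent.P132.Flow.Theta
import Vale.Agent.P132.Flow.Bic

/-!
# Estimates for centralising elements
-/

namespace Vale.Agent.P132.Flow

open scoped InnerProductSpace Topology ComplexOrder ComplexConjugate
open Scalar

universe u

variable {H : Type u} [NormedAddCommGroup H] [InnerProductSpace ℂ H] [CompleteSpace H]
  {M : VonNeumannAlgebra H} {Ω : H}

theorem norm_star_isom {v : H →L[ℂ] H} (h : star v * v = 1) : ‖star v‖ ≤ 1 := by
  rw [norm_star]; exact norm_isom_le h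

/-- The adjoint form of a weight. -/
theorem weight_adj {v : H →L[ℂ] H} {c δ : ℝ} (hv : HasWeight M Ω v c δ) {y : H →L[ℂ] H}
    (hy : y ∈ M) :
    ‖⟪Ω, y (star v Ω)⟫_ℂ - (c : ℂ) * ⟪Ω, star v (y Ω)⟫_ℂ‖ ≤ δ * ‖y‖ := by
  have h := hv.2.2 (star y) (star_mem hy)
  rw [norm_star, ← Complex.norm_conj, map_sub, map_mul, Complex.conj_ofReal, inner_conj_symm,
    inner_conj_symm] at h
  rwa [← inner_star v, inner_star_left y, inner_star_left y, ← inner_star v] at h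

/-- Right multiplication by an isometry of weight `c`. -/
theorem norm_sq_weight_le (hcs : IsCS M Ω) {v z : H →L[ℂ] H} {c δ : ℝ} (hc : 0 < c)
    (hv : HasWeight M Ω v c δ) (hz : z ∈ M) :
    ‖z (v Ω)‖ ^ 2 ≤ (‖z Ω‖ * ‖z‖ + δ * ‖z‖ ^ 2) / c := by
  set X := star z * z with hX
  have hXM : X ∈ M := mul_mem (star_mem hz) hz
  have hXn : ‖X‖ = ‖z‖ ^ 2 := by rw [hX, CStarRing.norm_star_mul_self, sq]
  have hδ : 0 ≤ δ := by
    have h1 := (norm_nonneg _).trans (hv.2.2 1 (one_mem M))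
    have h2 : (1 : ℝ) ≤ ‖(1 : H →L[ℂ] H)‖ := by
      have h3 := (1 : H →L[ℂ] H).le_opNorm Ω
      rwa [one_apply_eq_self, hcs.norm, mul_one] at h3
    nlinarith
  have h := weight_adj hv (y := X * v) (mul_mem hXM hv.1)
  have e1 : ⟪Ω, star v ((X * v) Ω)⟫_ℂ = ((‖z (v Ω)‖ ^ 2 : ℝ) : ℂ) := by
    simp only [hX, mul_apply_eq_comp, inner_star]
    rw [inner_self_eq_norm_sq_to_K]; push_cast; rfl
  rw [e1] at h
  have e2 : ‖⟪Ω, (X * v) (star v Ω)⟫_ℂ‖ ≤ ‖z Ω‖ * ‖z‖ := by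
    simp only [hX, mul_apply_eq_comp, inner_star]
    refine (norm_inner_le_norm _ _).trans (mul_le_mul_of_nonneg_left ?_ (norm_nonneg _))
    calc ‖z (v (star v Ω))‖ ≤ ‖z‖ * ‖v (star v Ω)‖ := z.le_opNorm _
      _ ≤ ‖z‖ * 1 := by
          refine mul_le_mul_of_nonneg_left ?_ (norm_nonneg _)
          rw [norm_isom_apply hv.2.1]
          exact ((star v).le_opNorm Ω).trans
            (by rw [hcs.norm, mul_one]; exact norm_star_isom hv.2.1)
      _ = ‖z‖ := mul_one _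
  have h2 : c * ‖z (v Ω)‖ ^ 2 ≤ ‖z Ω‖ * ‖z‖ + δ * ‖z‖ ^ 2 := by
    have h3 := norm_le_norm_add_norm_sub' (((c : ℂ)) * ((‖z (v Ω)‖ ^ 2 : ℝ) : ℂ))
      (⟪Ω, (X * v) (star v Ω)⟫_ℂ)
    rw [norm_mul, Complex.norm_real, Complex.norm_real, Real.norm_of_nonneg hc.le,
      Real.norm_of_nonneg (sq_nonneg _), norm_sub_rev] at h3
    have h4 : δ * ‖X * v‖ ≤ δ * ‖z‖ ^ 2 :=
      mul_le_mul_of_nonneg_left ((norm_mul_le_of_le_one' (norm_isom_le hv.2.1)).trans_eq hXn) hδ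
    linarith
  rw [le_div_iff₀ hc]; linarith

/-- Right multiplication by a centralising element. -/
theorem norm_sq_cent_le (hcs : IsCS M Ω) {w z : H →L[ℂ] H} {C δ : ℝ} (hw : w ∈ M)
    (hwC : ‖w‖ ≤ C) (hδ : 0 ≤ δ) (hcent : Centralises M (vecState Ω) w δ) (hz : z ∈ M) :
    ‖z (w Ω)‖ ^ 2 ≤ C ^ 2 * (‖z Ω‖ * ‖z‖) + δ * C * ‖z‖ ^ 2 := by
  have hC : 0 ≤ C := (norm_nonneg w).trans hwC
  set X := star z * z with hX
  have h := hcent (star w * X) (mul_mem (star_mem hw) (mul_mem (star_mem hz) hz))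
  simp only [vecState_apply, hX, mul_apply_eq_comp, inner_star] at h
  have e1 : ⟪z (w Ω), z (w Ω)⟫_ℂ = ((‖z (w Ω)‖ ^ 2 : ℝ) : ℂ) := by
    rw [inner_self_eq_norm_sq_to_K]; push_cast; rfl
  rw [e1] at h
  have h2 := norm_le_norm_add_norm_sub' (((‖z (w Ω)‖ ^ 2 : ℝ) : ℂ))
    (⟪Ω, w (star w (star z (z Ω)))⟫_ℂ)
  rw [Complex.norm_real, Real.norm_of_nonneg (sq_nonneg _)] at h2
  have h3 : ‖⟪Ω, w (star w (star z (z Ω)))⟫_ℂ‖ ≤ C ^ 2 * (‖z Ω‖ * ‖z‖) := by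
    refine (norm_inner_le_norm _ _).trans ?_
    rw [hcs.norm, one_mul]
    calc ‖w (star w (star z (z Ω)))‖ ≤ C * ‖star w (star z (z Ω))‖ :=
          w.le_of_opNorm_le hwC _
      _ ≤ C * (C * ‖star z (z Ω)‖) := by
          gcongr; exact (star w).le_of_opNorm_le (by rw [norm_star]; exact hwC) _
      _ ≤ C * (C * (‖z‖ * ‖z Ω‖)) := by
          gcongr; exact (star z).le_of_opNorm_le (by rw [norm_star]) _
      _ = _ := by ring
  have h4 : δ * ‖star w * (star z * z)‖ ≤ δ * C * ‖z‖ ^ 2 := by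
    rw [mul_assoc]
    refine mul_le_mul_of_nonneg_left ((norm_mul_le _ _).trans ?_) hδ
    rw [CStarRing.norm_star_mul_self, sq, norm_star]
    gcongr
  linarith

/-- `v' v*` for isometries of nearly equal weights. -/
theorem centralises_two (hcs : IsCS M Ω) {v v' : H →L[ℂ] H} {c c' δ δ' : ℝ} (hδ : 0 ≤ δ)
    (hδ' : 0 ≤ δ') (hv : HasWeight M Ω v c δ) (hv' : HasWeight M Ω v' c' δ') :
    Centralises M (vecState Ω) (v' * star v) (δ + δ' + |c - c'|) := by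
  intro y hy
  have hn := norm_star_isom hv.2.1
  have h1 := (hv'.2.2 (star v * y) (mul_mem (star_mem hv.1) hy)).trans
    (mul_le_mul_of_nonneg_left (norm_mul_le_of_le_one hn) hδ')
  have h2 := (weight_adj hv (y := y * v') (mul_mem hy hv'.1)).trans
    (mul_le_mul_of_nonneg_left (norm_mul_le_of_le_one' (norm_isom_le hv'.2.1)) hδ)
  simp only [vecState_apply, mul_apply_eq_comp] at h1 h2 ⊢
  set A := ⟪Ω, star v (y (v' Ω))⟫_ℂ with hA
  have h3 : ‖(c : ℂ) * A - (c' : ℂ) * A‖ ≤ |c - c'| * ‖y‖ := by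
    rw [← sub_mul, ← Complex.ofReal_sub, norm_mul, Complex.norm_real, Real.norm_eq_abs]
    refine mul_le_mul_of_nonneg_left ?_ (abs_nonneg _)
    refine (norm_inner_le_norm _ _).trans ?_
    rw [hcs.norm, one_mul]
    refine ((star v).le_of_opNorm_le hn _).trans ?_
    rw [one_mul]
    refine (y.le_opNorm _).trans_eq ?_
    rw [norm_isom_apply hv'.2.1, hcs.norm, mul_one]
  rw [add_mul, add_mul]
  have := norm_sub_le_norm_sub_add_norm_sub ⟪Ω, y (v' (star v Ω))⟫_ℂ ((c : ℂ) * A)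
    ⟪Ω, v' (star v (y Ω))⟫_ℂ
  have h5 := norm_sub_le_norm_sub_add_norm_sub ((c : ℂ) * A) ((c' : ℂ) * A)
    ⟪Ω, v' (star v (y Ω))⟫_ℂ
  rw [norm_sub_rev ((c' : ℂ) * A) _] at h5
  linarith

/-- `v w v*` centralises if `w` does. -/
theorem centralises_conj {v w : H →L[ℂ] H} {c δ δw C : ℝ} (hc : 0 ≤ c) (hc1 : c ≤ 1) (hδ : 0 ≤ δ)
    (hδw : 0 ≤ δw) (hv : HasWeight M Ω v c δ) (hwM : w ∈ M) (hwC : ‖w‖ ≤ C)
    (hw : Centralises M (vecState Ω) w δw) :
    Centralises M (vecState Ω) (v * w * star v) (2 * C * δ + δw) := by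
  intro y hy
  have hC : 0 ≤ C := (norm_nonneg w).trans hwC
  have hn := norm_star_isom hv.2.1
  have hi := norm_isom_le hv.2.1
  have h1 := (hv.2.2 (w * star v * y) (mul_mem (mul_mem hwM (star_mem hv.1)) hy)).trans
    (mul_le_mul_of_nonneg_left (b := ‖w * star v * y‖) (c := C * ‖y‖) ?_ hδ)
  swap
  · refine (norm_mul_le _ _).trans (mul_le_mul_of_nonneg_right ?_ (norm_nonneg y))
    exact (norm_mul_le_of_le_one' hn).trans hwC
  have h2 := (weight_adj hv (y := y * v * w) (mul_mem (mul_mem hy hv.1) hwM)).trans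
    (mul_le_mul_of_nonneg_left (b := ‖y * v * w‖) (c := C * ‖y‖) ?_ hδ)
  swap
  · refine (norm_mul_le _ _).trans ?_
    rw [mul_comm C]
    exact mul_le_mul (norm_mul_le_of_le_one' hi) hwC (norm_nonneg _) (norm_nonneg _)
  have h3 := (hw (star v * y * v) (mul_mem (mul_mem (star_mem hv.1) hy) hv.1)).trans
    (mul_le_mul_of_nonneg_left
      ((norm_mul_le_of_le_one' hi).trans (norm_mul_le_of_le_one hn)) hδw)
  simp only [vecState_apply, mul_apply_eq_comp] at h1 h2 h3 ⊢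
  set A := ⟪Ω, star v (y (v (w Ω)))⟫_ℂ with hA
  set B := ⟪Ω, w (star v (y (v Ω)))⟫_ℂ with hB
  have h4 : ‖(c : ℂ) * A - (c : ℂ) * B‖ ≤ δw * ‖y‖ := by
    rw [← mul_sub, norm_mul, Complex.norm_real, Real.norm_of_nonneg hc]
    exact (mul_le_of_le_one_left (norm_nonneg _) hc1).trans h3
  have t1 := norm_sub_le_norm_sub_add_norm_sub ⟪Ω, y (v (w (star v Ω)))⟫_ℂ ((c : ℂ) * A)
    ⟪Ω, v (w (star v (y Ω)))⟫_ℂ
  have t2 := norm_sub_le_norm_sub_add_norm_sub ((c : ℂ) * A) ((c : ℂ) * B)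
    ⟪Ω, v (w (star v (y Ω)))⟫_ℂ
  rw [norm_sub_rev ((c : ℂ) * B) _] at t2
  linarith

end Vale.Agent.P132.Flow
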