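import Vale.Agent.P132.Flow.Algebra

/-!
# The flow preserves the state

Cutting `1 = Σ V_j V_j*` by isometries of weights `c_j` shows that `c ↦ c φ(β_c a)` is additive.
-/

namespace Vale.Agent.P132.Flow

open scoped InnerProductSpace Topology ComplexOrder ComplexConjugate
open Filter Scalar

universe u

variable {H : Type u} [NormedAddCommGroup H] [InnerProductSpace ℂ H] [CompleteSpace H]
  {M : VonNeumannAlgebra H} {Ω : H} {D : ModData M Ω}

/-- An additive function on `(0,1]` vanishing at `1` and bounded vanishes. -/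
theorem eq_zero_of_additive {g : ℝ → ℂ} {B : ℝ}
    (hadd : ∀ x y, 0 < x → 0 < y → x + y ≤ 1 → g (x + y) = g x + g y) (h1 : g 1 = 0)
    (hB : ∀ x, 0 < x → x ≤ 1 → ‖g x‖ ≤ B) {x : ℝ} (hx : 0 < x) (hx1 : x ≤ 1) : g x = 0 := by
  have hB0 : 0 ≤ B := (norm_nonneg _).trans (hB x hx hx1)
  have key : ∀ n : ℕ, ∀ y, 0 < y → y ≤ 1 → ‖g y‖ ≤ B / 2 ^ n := by
    intro n
    induction n with
    | zero => simpa using hB
    | succ n ih =>
      have half : ∀ y, 0 < y → y ≤ 1 / 2 → ‖g y‖ ≤ B / 2 ^ (n + 1) := by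
        intro y hy hy2
        have h := ih (y + y) (by linarith) (by linarith)
        rw [hadd y y hy hy (by linarith), ← two_mul, norm_mul, Complex.norm_ofNat] at h
        rw [pow_succ, ← div_div, le_div_iff₀ two_pos]
        linarith
      intro y hy hy1
      rcases le_or_gt y (1 / 2) with hy2 | hy2
      · exact half y hy hy2
      rcases hy1.lt_or_eq with hy1 | rfl
      · have h := hadd y (1 - y) hy (by linarith) (by linarith)
        rw [add_sub_cancel, h1] at h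
        rw [eq_neg_of_add_eq_zero_left h.symm, norm_neg]
        exact half (1 - y) (by linarith) (by linarith)
      · rw [h1, norm_zero]; positivity
  have ht : Tendsto (fun n : ℕ => B / 2 ^ n) atTop (𝓝 0) :=
    tendsto_const_nhds.div_atTop (tendsto_pow_atTop_atTop_of_one_lt one_lt_two)
  exact norm_le_zero_iff.1 (ge_of_tendsto ht (Eventually.of_forall fun n => key n x hx hx1))

variable (hb : Base M Ω D) (h3 : IsTypeIII M) (hh : IsHomogeneous M) {a : H →L[ℂ] H}
  (ha : InBicentralizer M (vecState Ω) a)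
include hb h3 hh ha

/-- The flow splits the state along every partition. -/
theorem sum_partition {d : ℕ} {c : Fin d → ℝ} (hc : ∀ j, 0 < c j) (hs : ∑ j, c j = 1) :
    ∑ j, (c j : ℂ) * ⟪Ω, beta M Ω (c j) a Ω⟫_ℂ = ⟪Ω, a Ω⟫_ℂ := by
  have hc1 : ∀ j, c j ≤ 1 := fun j =>
    (Finset.single_le_sum (fun k _ => (hc k).le) (Finset.mem_univ j)).trans hs.le
  refine eq_of_forall_dist_le fun η hη => ?_
  have hspec : ∀ j, ∃ δ : ℝ, 0 < δ ∧ ∀ v, HasWeight M Ω v (c j) δ →
      ‖(star v * a * v) Ω - beta M Ω (c j) a Ω‖ ≤ η / 2 := fun j =>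
    beta_spec hb ha (hc j) (hc1 j) (half_pos hη)
  choose δ hδ hd using hspec
  obtain ⟨ε, hεd, hεη, hε⟩ : ∃ ε : ℝ, (∀ j, ε ≤ δ j) ∧ ε * (d * ‖a‖) ≤ η / 2 ∧ 0 < ε := by
    have hne : Nonempty (Fin d) := by
      refine not_isEmpty_iff.1 fun h => ?_
      rw [Finset.univ_eq_empty, Finset.sum_empty] at hs
      exact zero_ne_one hs
    obtain ⟨j₀, hj₀⟩ := Finite.exists_min δ
    refine ⟨min (δ j₀) (η / 2 / (d * ‖a‖ + 1)), fun j => (min_le_left _ _).trans (hj₀ j), ?_,
      lt_min (hδ j₀) (by positivity)⟩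
    calc min (δ j₀) (η / 2 / (d * ‖a‖ + 1)) * (d * ‖a‖)
        ≤ η / 2 / (d * ‖a‖ + 1) * (d * ‖a‖ + 1) :=
          mul_le_mul (min_le_right _ _) (le_add_of_nonneg_right zero_le_one) (by positivity)
            (by positivity)
      _ = η / 2 := div_mul_cancel₀ _ (by positivity)
  obtain ⟨V, hV, -, hVs⟩ := exists_theta hb.cs h3 hh hc hs hε
  have hφ : ⟪Ω, a Ω⟫_ℂ = ∑ j, ⟪Ω, (a * V j) (star (V j) Ω)⟫_ℂ := by
    conv_lhs => rw [← mul_one a, ← hVs, Finset.mul_sum]
    simp [sum_apply]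
  rw [dist_eq_norm, hφ, ← Finset.sum_sub_distrib]
  refine (norm_sum_le _ _).trans ((Finset.sum_le_sum (g := fun j => c j * (η / 2) + ε * ‖a‖)
    fun j _ => ?_).trans ?_)
  · set B := (c j : ℂ) * ⟪Ω, beta M Ω (c j) a Ω⟫_ℂ
    set K := (c j : ℂ) * ⟪Ω, (star (V j) * a * V j) Ω⟫_ℂ with hK
    have t1 : ‖B - K‖ ≤ c j * (η / 2) := by
      rw [hK, ← mul_sub, ← inner_sub_right, norm_mul, Complex.norm_real,
        Real.norm_of_nonneg (hc j).le]
      refine mul_le_mul_of_nonneg_left ((norm_inner_le_norm _ _).trans ?_) (hc j).le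
      rw [hb.cs.norm, one_mul, norm_sub_rev]
      exact hd j _ (hasWeight_mono (hV j) (hεd j))
    have t2 : ‖⟪Ω, (a * V j) (star (V j) Ω)⟫_ℂ - K‖ ≤ ε * ‖a‖ :=
      (weight_adj (hV j) (mul_mem ha.1 (hV j).1)).trans (mul_le_mul_of_nonneg_left
        (norm_mul_le_of_le_one' (norm_isom_le (hV j).2.1)) hε.le)
    have t := norm_sub_le_norm_sub_add_norm_sub B K ⟪Ω, (a * V j) (star (V j) Ω)⟫_ℂ
    rw [norm_sub_rev K] at t
    linarith
  · rw [Finset.sum_add_distrib, ← Finset.sum_mul, hs, one_mul, Finset.sum_const, Finset.card_univ,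
      Fintype.card_fin, nsmul_eq_mul]
    linarith

/-- The flow preserves the state. -/
theorem inner_beta_omega {c : ℝ} (hc : 0 < c) (hc1 : c ≤ 1) :
    ⟪Ω, beta M Ω c a Ω⟫_ℂ = ⟪Ω, a Ω⟫_ℂ := by
  set G : ℝ → ℂ := fun x => (x : ℂ) * ⟪Ω, beta M Ω x a Ω⟫_ℂ with hG
  set φ := ⟪Ω, a Ω⟫_ℂ with hφ
  have h1 : G 1 = φ := by
    simpa [hG] using sum_partition hb h3 hh ha (c := ![1]) (by simp) (by simp)
  have h2 : ∀ x y : ℝ, 0 < x → 0 < y → x + y = 1 → G x + G y = φ := fun x y hx hy hxy => by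
    simpa [hG] using sum_partition hb h3 hh ha (c := ![x, y]) (by simp [hx, hy]) (by simpa using hxy)
  have hadd : ∀ x y : ℝ, 0 < x → 0 < y → x + y ≤ 1 → G (x + y) = G x + G y := by
    intro x y hx hy hxy
    rcases hxy.lt_or_eq with hlt | heq
    · have e3 : G x + G y + G (1 - (x + y)) = φ := by
        simpa [hG, Fin.sum_univ_three] using sum_partition hb h3 hh ha
          (c := ![x, y, 1 - (x + y)]) (by intro j; fin_cases j <;> simp <;> linarith)
          (by simp [Fin.sum_univ_three])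
      exact add_right_cancel ((h2 (x + y) _ (by linarith) (by linarith) (by ring)).trans e3.symm)
    · rw [heq, h1, h2 x y hx hy heq]
  have hbd : ∀ x : ℝ, 0 < x → x ≤ 1 → ‖G x - (x : ℂ) * φ‖ ≤ 2 * ‖a‖ := by
    intro x hx hx1
    have hop : ∀ T : H →L[ℂ] H, ‖⟪Ω, T Ω⟫_ℂ‖ ≤ ‖T‖ := fun T =>
      (norm_inner_le_norm _ _).trans (by
        have := T.le_opNorm Ω
        rw [hb.cs.norm, mul_one] at this
        rw [hb.cs.norm, one_mul]; exact this)
    rw [hG, ← mul_sub, norm_mul, Complex.norm_real, Real.norm_of_nonneg hx.le]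
    refine (mul_le_of_le_one_left (norm_nonneg _) hx1).trans ((norm_sub_le _ _).trans ?_)
    linarith [hop a, (hop (beta M Ω x a)).trans (norm_beta_le hb ha hx hx1)]
  have h0 := eq_zero_of_additive (g := fun x => G x - (x : ℂ) * φ)
    (fun x y hx hy hxy => by rw [hadd x y hx hy hxy]; push_cast; ring)
    (by simp [h1]) hbd hc hc1
  exact mul_left_cancel₀ (Complex.ofReal_ne_zero.2 hc.ne') (sub_eq_zero.1 h0)

/-- The flow preserves inner products of vectors `a Ω`. -/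
theorem inner_beta {b : H →L[ℂ] H} (hb' : InBicentralizer M (vecState Ω) b) {c : ℝ} (hc : 0 < c)
    (hc1 : c ≤ 1) : ⟪beta M Ω c a Ω, beta M Ω c b Ω⟫_ℂ = ⟪a Ω, b Ω⟫_ℂ := by
  have hs := hb.closed.star a ha
  have h := inner_beta_omega hb h3 hh (hb.closed.mul _ _ hs hb') hc hc1
  rw [beta_mul hb hs hc hc1 hb', beta_star hb ha hc hc1] at h
  simpa [inner_star] using h

end Vale.Agent.P132.Flow
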