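import Vale.Agent.P132.Flow.Algebra

/-!
# Transfer: almost centralising matrices almost commute with the flow

`Θ W = Σ V_j W_jk V_k*` centralises when `cent2` is small, so almost commutes with `a`, and
`a V_k ≈ V_k β_(c_k) a`.
-/

namespace Vale.Agent.P132.Flow

open scoped InnerProductSpace Topology ComplexOrder ComplexConjugate
open Filter Scalar

universe u

variable {H : Type u} [NormedAddCommGroup H] [InnerProductSpace ℂ H] [CompleteSpace H]
  {M : VonNeumannAlgebra H} {Ω : H} {D : ModData M Ω}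

omit [CompleteSpace H] in
theorem inner_self_ofReal (x : H) : ⟪x, x⟫_ℂ = ((‖x‖ ^ 2 : ℝ) : ℂ) := by
  rw [inner_self_eq_norm_sq_to_K]; push_cast; rfl

theorem J_sub (D : ModData M Ω) (u v : H) : D.J (u - v) = D.J u - D.J v := by
  rw [eq_sub_iff_add_eq, ← D.J_add, sub_add_cancel]

theorem J_real (D : ModData M Ω) (r : ℝ) (v : H) : D.J ((r : ℂ) • v) = (r : ℂ) • D.J v := by
  rw [D.J_smul, Complex.conj_ofReal]

theorem norm_J_apply (D : ModData M Ω) (u : H) : ‖D.J u‖ = ‖u‖ := by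
  rw [norm_eq_sqrt_re_inner (𝕜 := ℂ), norm_eq_sqrt_re_inner (𝕜 := ℂ), D.J_inner]

/-- The commutation of `M` with `J M J` seen by the state. -/
theorem inner_J_swap (D : ModData M Ω) {X Y : H →L[ℂ] H} (hX : X ∈ M) (hY : Y ∈ M) :
    ⟪star Y Ω, D.J (star X Ω)⟫_ℂ = ⟪D.J (X Ω), Y Ω⟫_ℂ := by
  have h := D.J_comm Y hY (star X) (star_mem hX) Ω
  rw [D.J_omega] at h
  rw [Flow.inner_star_left, h]
  have e1 := D.J_inner Ω (star X (D.J (Y Ω)))
  rw [D.J_omega] at e1
  have e2 := D.J_inner (X Ω) (D.J (Y Ω))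
  rw [D.J_invol] at e2
  rw [e1, e2, Flow.inner_star_left]

/-- The commutator with the state of a matrix entry, through `cvec`. -/
theorem entry_eq (D : ModData M Ω) {d : ℕ} {c : Fin d → ℝ} (hc : ∀ j, 0 ≤ c j)
    {W : Fin d → Fin d → H →L[ℂ] H} {j k : Fin d} (hW : W j k ∈ M) {Y : H →L[ℂ] H} (hY : Y ∈ M) :
    (c k : ℂ) * ⟪star Y Ω, W j k Ω⟫_ℂ - (c j : ℂ) * ⟪star (W j k) Ω, Y Ω⟫_ℂ =
      (√(c k) : ℂ) * ⟪star Y Ω, cvec D c W j k⟫_ℂ +
        (√(c j) : ℂ) * ⟪D.J (cvec D c W j k), Y Ω⟫_ℂ := by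
  have e : ∀ i, (c i : ℂ) = (√(c i) : ℂ) * (√(c i) : ℂ) := fun i => by
    rw [← Complex.ofReal_mul, Real.mul_self_sqrt (hc i)]
  simp only [cvec, J_sub, J_real, D.J_invol, inner_sub_left, inner_sub_right, inner_smul_left,
    inner_smul_right, Complex.conj_ofReal, ← inner_J_swap D hW hY]
  rw [e k, e j]; ring

variable {d : ℕ} {V : Fin d → H →L[ℂ] H}

/-- `Θ W = Σ V_j W_jk V_k*`. -/
noncomputable def theta (V : Fin d → H →L[ℂ] H) (W : Fin d → Fin d → H →L[ℂ] H) : H →L[ℂ] H :=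
  ∑ j, ∑ k, V j * W j k * star (V k)

theorem theta_mem (hV : ∀ j, V j ∈ M) {W : Fin d → Fin d → H →L[ℂ] H} (hW : ∀ j k, W j k ∈ M) :
    theta V W ∈ M :=
  sum_mem fun j _ => sum_mem fun k _ => mul_mem (mul_mem (hV j) (hW j k)) (star_mem (hV k))

theorem theta_mul (hVV : ∀ j k, star (V j) * V k = if j = k then 1 else 0)
    (W : Fin d → Fin d → H →L[ℂ] H) (l : Fin d) :
    theta V W * V l = ∑ j, V j * W j l := by
  simp only [theta, Finset.sum_mul, mul_assoc, hVV, mul_ite, mul_one, mul_zero, Finset.sum_ite_eq',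
    Finset.mem_univ, if_true]

theorem sum_norm_sq_star (hVs : ∑ j, V j * star (V j) = 1) (x : H) :
    ∑ j, ‖star (V j) x‖ ^ 2 = ‖x‖ ^ 2 := by
  have h : ∀ j, ((‖star (V j) x‖ ^ 2 : ℝ) : ℂ) = ⟪x, (V j * star (V j)) x⟫_ℂ := fun j => by
    rw [← inner_self_ofReal, Flow.inner_star_left]; rfl
  apply Complex.ofReal_injective
  rw [Complex.ofReal_sum]
  simp only [h]
  rw [← inner_sum, ← sum_apply, hVs, one_apply_eq_self, inner_self_ofReal]

theorem norm_sq_sum (hVV : ∀ j k, star (V j) * V k = if j = k then 1 else 0) (x : Fin d → H) :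
    ‖∑ j, V j (x j)‖ ^ 2 = ∑ j, ‖x j‖ ^ 2 := by
  classical
  apply Complex.ofReal_injective
  rw [← inner_self_ofReal, Complex.ofReal_sum, sum_inner]
  refine Finset.sum_congr rfl fun j _ => ?_
  rw [inner_sum, Finset.sum_eq_single j]
  · rw [← inner_star, ← mul_apply_eq_comp, hVV, if_pos rfl, one_apply_eq_self, inner_self_ofReal]
  · intro k _ hk
    rw [← inner_star, ← mul_apply_eq_comp, hVV, if_neg (Ne.symm hk), zero_apply, inner_zero_right]
  · simp

variable {W : Fin d → Fin d → H →L[ℂ] H}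

theorem norm_entry_le (hW : IsUnitaryMat M W) (j k : Fin d) : ‖W j k‖ ≤ 1 := by
  refine (W j k).opNorm_le_bound zero_le_one fun x => ?_
  rw [one_mul]
  refine (pow_le_pow_iff_left₀ (norm_nonneg _) (norm_nonneg _) two_ne_zero).1 ?_
  have h : ∑ i, ‖W i k x‖ ^ 2 = ‖x‖ ^ 2 := by
    apply Complex.ofReal_injective
    rw [Complex.ofReal_sum]
    simp only [← inner_self_ofReal]
    simp only [← inner_star, ← mul_apply_eq_comp]
    rw [← inner_sum, ← sum_apply, hW.2.1 k k, if_pos rfl, one_apply_eq_self]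
  rw [← h]
  exact Finset.single_le_sum (f := fun i => ‖W i k x‖ ^ 2) (fun i _ => sq_nonneg _)
    (Finset.mem_univ j)

theorem norm_theta_le (hVV : ∀ j k, star (V j) * V k = if j = k then 1 else 0)
    (hVs : ∑ j, V j * star (V j) = 1) (hW : IsUnitaryMat M W) : ‖theta V W‖ ≤ 1 := by
  refine norm_isom_le ?_
  have hi : ∀ i, star (theta V W) * V i = ∑ k, V k * star (W i k) := by
    intro i
    simp only [theta, star_sum, star_mul, star_star, Finset.sum_mul, mul_assoc, hVV, mul_ite,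
      mul_one, mul_zero]
    rw [Finset.sum_comm]
    simp
  have hl : ∀ l, star (theta V W) * (theta V W * V l) = V l := by
    intro l
    rw [theta_mul hVV, Finset.mul_sum]
    simp only [← mul_assoc, hi, Finset.sum_mul]
    rw [Finset.sum_comm]
    simp only [mul_assoc, ← Finset.mul_sum, hW.2.1, mul_ite, mul_one, mul_zero, Finset.sum_ite_eq',
      Finset.mem_univ, if_true]
  calc star (theta V W) * theta V W = ∑ l, star (theta V W) * (theta V W * V l) * star (V l) := by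
        simp only [mul_assoc, ← Finset.mul_sum, hVs, mul_one]
    _ = 1 := by simp only [hl, hVs]

/-- `Θ W` centralises if `W` does. -/
theorem centralises_theta (hcs : IsCS M Ω) (D : ModData M Ω) {c : Fin d → ℝ} (hc : ∀ j, 0 ≤ c j)
    (hs : ∑ j, c j = 1) (hW : IsUnitaryMat M W) {ε : ℝ} (hε : 0 ≤ ε)
    (hV : ∀ j, HasWeight M Ω (V j) (c j) ε) (hVs : ∑ j, V j * star (V j) = 1) :
    Centralises M (vecState Ω) (theta V W) (2 * √(cent2 D c W) + 2 * d ^ 2 * ε) := by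
  intro y hy
  set T : Fin d → Fin d → H →L[ℂ] H := fun j k => star (V k) * y * V j with hT
  have hTM : ∀ j k, T j k ∈ M := fun j k => mul_mem (mul_mem (star_mem (hV k).1) hy) (hV j).1
  set F : Fin d → Fin d → ℂ := fun j k =>
    (c k : ℂ) * ⟪star (T j k) Ω, W j k Ω⟫_ℂ - (c j : ℂ) * ⟪star (W j k) Ω, T j k Ω⟫_ℂ
  have herr : ∀ j k, ‖⟪Ω, (y * (V j * W j k * star (V k))) Ω⟫_ℂ -
      ⟪Ω, ((V j * W j k * star (V k)) * y) Ω⟫_ℂ - F j k‖ ≤ 2 * ε * ‖y‖ := by
    intro j k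
    have h1 := (weight_adj (hV k) (mul_mem hy (mul_mem (hV j).1 (hW.1 j k)))).trans
      (mul_le_mul_of_nonneg_left (norm_mul_le_of_le_one'
        ((norm_mul_le_of_le_one (norm_isom_le (hV j).2.1)).trans (norm_entry_le hW j k))) hε)
    have h2 := ((hV j).2.2 _ (mul_mem (mul_mem (hW.1 j k) (star_mem (hV k).1)) hy)).trans
      (mul_le_mul_of_nonneg_left (norm_mul_le_of_le_one
        ((norm_mul_le_of_le_one' (norm_star_isom (hV k).2.1)).trans (norm_entry_le hW j k))) hε)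
    have e1 : ⟪star (T j k) Ω, W j k Ω⟫_ℂ = ⟪Ω, star (V k) (y (V j (W j k Ω)))⟫_ℂ := by
      rw [Flow.inner_star_left]; rfl
    have e2 : ⟪star (W j k) Ω, T j k Ω⟫_ℂ = ⟪Ω, W j k (star (V k) (y (V j Ω)))⟫_ℂ := by
      rw [Flow.inner_star_left]; rfl
    simp only [F, e1, e2]
    simp only [mul_apply_eq_comp] at h1 h2 ⊢
    refine le_trans (le_of_eq (congrArg _ ?_))
      ((norm_sub_le _ _).trans ((add_le_add h1 h2).trans_eq (by ring)))
    ring
  have hsum : vecState Ω (y * theta V W) - vecState Ω (theta V W * y) =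
      ∑ j, ∑ k, (⟪Ω, (y * (V j * W j k * star (V k))) Ω⟫_ℂ -
        ⟪Ω, ((V j * W j k * star (V k)) * y) Ω⟫_ℂ - F j k) + ∑ j, ∑ k, F j k := by
    simp only [theta, Finset.mul_sum, Finset.sum_mul, map_sum]
    simp only [vecState_apply, Finset.sum_sub_distrib, sub_add_cancel]
  rw [hsum]
  refine (norm_add_le _ _).trans ?_
  have hA : ‖∑ j, ∑ k, (⟪Ω, (y * (V j * W j k * star (V k))) Ω⟫_ℂ -
      ⟪Ω, ((V j * W j k * star (V k)) * y) Ω⟫_ℂ - F j k)‖ ≤ 2 * (d : ℝ) ^ 2 * ε * ‖y‖ := by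
    refine (norm_sum_le _ _).trans ((Finset.sum_le_sum fun j _ => (norm_sum_le _ _).trans
      (Finset.sum_le_sum fun k _ => herr j k)).trans_eq ?_)
    simp; ring
  have hF : ∀ j k, ‖F j k‖ ≤ ‖cvec D c W j k‖ * (√(c k) * ‖star (T j k) Ω‖) +
      ‖cvec D c W j k‖ * (√(c j) * ‖T j k Ω‖) := by
    intro j k
    simp only [F]
    rw [entry_eq D hc (hW.1 j k) (hTM j k)]
    refine (norm_add_le _ _).trans (add_le_add ?_ ?_)
    · rw [norm_mul, Complex.norm_real, Real.norm_of_nonneg (Real.sqrt_nonneg _), mul_left_comm,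
        mul_comm ‖cvec D c W j k‖]
      exact mul_le_mul_of_nonneg_left (norm_inner_le_norm _ _) (Real.sqrt_nonneg _)
    · rw [norm_mul, Complex.norm_real, Real.norm_of_nonneg (Real.sqrt_nonneg _), mul_left_comm]
      refine mul_le_mul_of_nonneg_left ((norm_inner_le_norm _ _).trans_eq ?_) (Real.sqrt_nonneg _)
      rw [norm_J_apply]
  have hcs2 : ∀ g : Fin d → Fin d → ℝ, (∑ j, ∑ k, g j k ^ 2) ≤ ‖y‖ ^ 2 →
      ∑ j, ∑ k, ‖cvec D c W j k‖ * g j k ≤ √(cent2 D c W) * ‖y‖ := by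
    intro g hg
    simp only [cent2, ← Fintype.sum_prod_type'] at hg ⊢
    refine (Real.sum_mul_le_sqrt_mul_sqrt _ _ _).trans (mul_le_mul_of_nonneg_left ?_
      (Real.sqrt_nonneg _))
    exact (Real.sqrt_le_sqrt hg).trans_eq (Real.sqrt_sq (norm_nonneg _))
  have hrow : ∀ z : H →L[ℂ] H, ∑ j, ∑ k, c j * ‖star (V k) (z (V j Ω))‖ ^ 2 ≤ ‖z‖ ^ 2 := by
    intro z
    refine le_of_le_of_eq (Finset.sum_le_sum fun j _ => ?_)
      (show ∑ j, c j * ‖z‖ ^ 2 = ‖z‖ ^ 2 by rw [← Finset.sum_mul, hs, one_mul])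
    rw [← Finset.mul_sum, sum_norm_sq_star hVs]
    refine mul_le_mul_of_nonneg_left (pow_le_pow_left₀ (norm_nonneg _) ?_ 2) (hc j)
    refine (z.le_opNorm _).trans_eq ?_
    rw [norm_isom_apply (hV j).2.1, hcs.norm, mul_one]
  have hB : ‖∑ j, ∑ k, F j k‖ ≤ 2 * √(cent2 D c W) * ‖y‖ := by
    refine (norm_sum_le _ _).trans ((Finset.sum_le_sum fun j _ => (norm_sum_le _ _).trans
      (Finset.sum_le_sum fun k _ => hF j k)).trans ?_)
    simp only [Finset.sum_add_distrib]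
    rw [two_mul, add_mul]
    refine add_le_add (hcs2 _ ?_) (hcs2 _ ?_)
    · simp only [mul_pow, Real.sq_sqrt (hc _)]
      rw [Finset.sum_comm]
      refine le_of_eq_of_le ?_ ((hrow (star y)).trans_eq (by rw [norm_star]))
      simp [hT, star_mul, mul_assoc]
    · simp only [mul_pow, Real.sq_sqrt (hc _)]
      refine le_of_eq_of_le ?_ (hrow y)
      simp [hT, mul_assoc]
  linarith [add_mul (2 * √(cent2 D c W)) (2 * (d : ℝ) ^ 2 * ε) ‖y‖]

/-- Weighted right multiplications by the `V k`. -/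
theorem sum_weight_sq_le {c : Fin d → ℝ} {ε : ℝ} (hε : 0 ≤ ε)
    (hV : ∀ j, HasWeight M Ω (V j) (c j) ε) (hVs : ∑ j, V j * star (V j) = 1) {z : H →L[ℂ] H}
    (hz : z ∈ M) : ∑ k, c k * ‖z (V k Ω)‖ ^ 2 ≤ ‖z Ω‖ ^ 2 + d * ε * ‖z‖ ^ 2 := by
  have h1 : ∀ k, ‖⟪Ω, (star z * z * V k) (star (V k) Ω)⟫_ℂ -
      ((c k * ‖z (V k Ω)‖ ^ 2 : ℝ) : ℂ)‖ ≤ ε * ‖z‖ ^ 2 := by
    intro k
    have h := (weight_adj (hV k) (mul_mem (mul_mem (star_mem hz) hz) (hV k).1)).trans
      (mul_le_mul_of_nonneg_left ((norm_mul_le_of_le_one' (norm_isom_le (hV k).2.1)).trans_eq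
        (show ‖star z * z‖ = ‖z‖ ^ 2 by rw [CStarRing.norm_star_mul_self, sq])) hε)
    rw [Complex.ofReal_mul, ← inner_self_ofReal, ← inner_star, ← inner_star]
    simpa only [mul_apply_eq_comp] using h
  have h2 : ((‖z Ω‖ ^ 2 : ℝ) : ℂ) = ∑ k, ⟪Ω, (star z * z * V k) (star (V k) Ω)⟫_ℂ := by
    rw [← inner_sum, ← inner_self_ofReal, ← inner_star]
    congr 1
    conv_lhs => rw [← mul_apply_eq_comp, ← mul_one (star z * z), ← hVs, Finset.mul_sum, sum_apply]
    simp [mul_assoc]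
  have h3 := (norm_sum_le _ _).trans ((Finset.sum_le_sum fun k (_ : k ∈ Finset.univ) => h1 k).trans_eq
    (by simp [mul_assoc] : _ = (d : ℝ) * ε * ‖z‖ ^ 2))
  rw [Finset.sum_sub_distrib, ← h2, ← Complex.ofReal_sum, ← Complex.ofReal_sub, Complex.norm_real,
    Real.norm_eq_abs] at h3
  linarith [(abs_le.1 h3).1]

variable (hb : Base M Ω D) {a : H →L[ℂ] H} (ha : InBicentralizer M (vecState Ω) a)
include hb ha

/-- `a v ≈ v β_c a` strongly. -/
theorem tendsto_twist {c : ℝ} (hc : 0 < c) (hc1 : c ≤ 1) {v : ℕ → H →L[ℂ] H}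
    (hv : WSeq M Ω c v) (x : H) :
    Tendsto (fun n => (a * v n - v n * beta M Ω c a) x) atTop (𝓝 0) := by
  have hbM := beta_mem_M hb ha hc hc1
  refine tendsto_of_omega D hb.cs
    (fun n => sub_mem (mul_mem ha.1 (hv.iso n).1) (mul_mem (hv.iso n).1 hbM))
    ⟨2 * ‖a‖, fun n => ?_⟩ ?_ x
  · refine (norm_sub_le _ _).trans ?_
    have h1 := norm_mul_le_of_le_one' (a := a) (norm_isom_le (hv.iso n).2)
    have h2 := (norm_mul_le_of_le_one (b := beta M Ω c a) (norm_isom_le (hv.iso n).2)).trans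
      (norm_beta_le hb ha hc hc1)
    linarith
  set p : ℕ → H →L[ℂ] H := fun n => v n * star (v n) with hp
  have hpM : ∀ n, p n ∈ M := fun n => mul_mem (hv.iso n).1 (star_mem (hv.iso n).1)
  have hpn : ∀ n, ‖p n‖ ≤ 1 := fun n => (norm_mul_le_of_le_one (norm_isom_le (hv.iso n).2)).trans
    (norm_star_isom (hv.iso n).2)
  set z : ℕ → H →L[ℂ] H := fun n => a * p n - p n * a with hz
  have hzM : ∀ n, z n ∈ M := fun n => sub_mem (mul_mem ha.1 (hpM n)) (mul_mem (hpM n) ha.1)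
  have hzn : ∀ n, ‖z n‖ ≤ 2 * ‖a‖ := fun n => (norm_sub_le _ _).trans (by
    linarith [norm_mul_le_of_le_one' (a := a) (hpn n), norm_mul_le_of_le_one (b := a) (hpn n)])
  have hzO : Tendsto (fun n => z n Ω) atTop (𝓝 0) := by
    refine ha.2 p hpM ⟨1, hpn⟩ (fun δ hδ => ?_) Ω
    filter_upwards [hv.small (δ / 2) (half_pos hδ)] with n hn y hy
    refine (centralises_two hb.cs (half_pos hδ).le (half_pos hδ).le hn hn y hy).trans_eq ?_
    rw [sub_self, abs_zero, add_zero, add_halves]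
  have hzv : Tendsto (fun n => ‖z n (v n Ω)‖) atTop (𝓝 0) := by
    have hsq : Tendsto (fun n => ‖z n (v n Ω)‖ ^ 2) atTop (𝓝 0) := by
      rw [Metric.tendsto_nhds]
      intro η hη
      set A := 2 * ‖a‖ + 1 with hA
      have hA0 : 0 < A := by positivity
      filter_upwards [Metric.tendsto_nhds.1 hzO (c * η / (2 * A)) (by positivity),
        hv.small (c * η / (2 * A ^ 2)) (by positivity)] with n h1 h2
      rw [dist_zero_right] at h1
      rw [Real.dist_eq, sub_zero, abs_of_nonneg (sq_nonneg _)]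
      refine lt_of_le_of_lt (norm_sq_weight_le hb.cs hc h2 (hzM n)) ((div_lt_iff₀ hc).2 ?_)
      have hzA : ‖z n‖ ≤ A := (hzn n).trans (by linarith)
      calc ‖z n Ω‖ * ‖z n‖ + c * η / (2 * A ^ 2) * ‖z n‖ ^ 2
          ≤ ‖z n Ω‖ * A + c * η / (2 * A ^ 2) * A ^ 2 := by gcongr
        _ < c * η / (2 * A) * A + c * η / (2 * A ^ 2) * A ^ 2 := by
            gcongr
        _ = η * c := by field_simp; ring
    simpa [Real.sqrt_sq (norm_nonneg _)] using hsq.sqrt
  have h1 : Tendsto (fun n => z n (v n Ω)) atTop (𝓝 0) := tendsto_zero_iff_norm_tendsto_zero.2 hzv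
  have h2 := tendsto_sub_nhds_zero_iff.2 (wseq_beta hb ha hc hc1 hv Ω)
  have h3 : Tendsto (fun n => v n ((star (v n) * a * v n) Ω - beta M Ω c a Ω)) atTop (𝓝 0) := by
    refine squeeze_zero_norm (fun n => (norm_isom_apply (hv.iso n).2 _).le) ?_
    simpa using h2.norm
  have h4 := h1.add h3
  rw [add_zero] at h4
  refine h4.congr fun n => ?_
  simp [hz, hp, star_isom_apply (hv.iso n).2]

variable (h3 : IsTypeIII M) (hh : IsHomogeneous M)
include h3 hh

/-- The transfer lemma. -/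
theorem transfer {η : ℝ} (hη : 0 < η) : ∃ δ : ℝ, 0 < δ ∧
    ∀ (d : ℕ) (c : Fin d → ℝ) (W : Fin d → Fin d → H →L[ℂ] H), (∀ j, 0 < c j) → ∑ j, c j = 1 →
      IsUnitaryMat M W → cent2 D c W ≤ δ → comm2 Ω c (fun j => beta M Ω (c j) a) W ≤ η := by
  obtain ⟨δ₀, hδ₀, hmod⟩ := modulus ha 1 (η := √(η / 2)) (Real.sqrt_pos.2 (half_pos hη))
  refine ⟨(δ₀ / 4) ^ 2, by positivity, fun d c W hc hs hW hcent => ?_⟩
  have hc1 : ∀ j, c j ≤ 1 := fun j =>
    (Finset.single_le_sum (fun k _ => (hc k).le) (Finset.mem_univ j)).trans hs.le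
  choose V hV hVV hVs using fun n : ℕ =>
    exists_theta hb.cs h3 hh hc hs (δ := 1 / ((n : ℝ) + 1)) (by positivity)
  have hwseq : ∀ j, WSeq M Ω (c j) fun n => V n j := fun j => ⟨fun δ hδ => by
    filter_upwards [tendsto_one_div_add_atTop_nhds_zero_nat.eventually (gt_mem_nhds hδ)] with n hn
    exact hasWeight_mono (hV n j) hn.le, fun n => ⟨(hV n j).1, (hV n j).2.1⟩⟩
  set A : Fin d → H →L[ℂ] H := fun j => beta M Ω (c j) a with hA
  set z : ℕ → H →L[ℂ] H := fun n => a * theta (V n) W - theta (V n) W * a with hzdef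
  set X : Fin d → Fin d → H := fun j k => (A j * W j k - W j k * A k) Ω with hX
  set Q : ℕ → Fin d → H := fun n k => ∑ j, V n j (X j k) with hQ
  have happ : ∀ k, Tendsto (fun n => z n (V n k Ω) - Q n k) atTop (𝓝 0) := by
    intro k
    have t1 := tendsto_finsetSum Finset.univ fun j _ =>
      tendsto_twist hb ha (hc j) (hc1 j) (hwseq j) (W j k Ω)
    rw [Finset.sum_const_zero] at t1
    have t2 : Tendsto (fun n => theta (V n) W ((a * V n k - V n k * A k) Ω)) atTop (𝓝 0) := by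
      refine squeeze_zero_norm (fun n => (theta (V n) W).le_of_opNorm_le
        (norm_theta_le (hVV n) (hVs n) hW) _) ?_
      simpa using (tendsto_twist hb ha (hc k) (hc1 k) (hwseq k) Ω).norm
    have t3 := t1.sub t2
    rw [sub_zero] at t3
    refine t3.congr fun n => ?_
    have e : ∀ x, theta (V n) W (V n k x) = ∑ j, V n j (W j k x) := fun x => by
      rw [← mul_apply_eq_comp, theta_mul (hVV n)]; simp [sum_apply]
    simp only [hzdef, hQ, hX, sub_apply, mul_apply_eq_comp, map_sub, map_sum, e,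
      Finset.sum_sub_distrib]
    abel
  have hQn : ∀ n, comm2 Ω c A W = ∑ k, c k * ‖Q n k‖ ^ 2 := fun n => by
    simp only [hQ, norm_sq_sum (hVV n), comm2, hX, Finset.mul_sum]
    exact Finset.sum_comm
  have hlim : Tendsto (fun n : ℕ => 2 * (η / 2 + d * (1 / ((n : ℝ) + 1)) * (2 * ‖a‖) ^ 2) +
      2 * ∑ k, c k * ‖z n (V n k Ω) - Q n k‖ ^ 2) atTop (𝓝 η) := by
    have h1 := ((tendsto_one_div_add_atTop_nhds_zero_nat.const_mul (d : ℝ)).mul_const
      ((2 * ‖a‖) ^ 2)).const_add (η / 2) |>.const_mul 2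
    have h2 := (tendsto_finsetSum Finset.univ fun k _ =>
      (((happ k).norm).pow 2).const_mul (c k)).const_mul (2 : ℝ)
    have h := h1.add h2
    simp only [norm_zero, ne_eq, OfNat.ofNat_ne_zero, not_false_eq_true, zero_pow, mul_zero,
      zero_mul, add_zero, Finset.sum_const_zero, mul_div_cancel₀] at h
    exact h
  refine ge_of_tendsto hlim ?_
  have hev : ∀ᶠ n : ℕ in atTop, 2 * (d : ℝ) ^ 2 * (1 / ((n : ℝ) + 1)) < δ₀ / 2 := by
    refine Tendsto.eventually_lt_const (half_pos hδ₀) ?_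
    simpa using (tendsto_one_div_add_atTop_nhds_zero_nat (𝕜 := ℝ)).const_mul (2 * (d : ℝ) ^ 2)
  filter_upwards [hev] with n hn
  have hth := theta_mem (fun j => (hV n j).1) hW.1
  have hsq : √(cent2 D c W) ≤ δ₀ / 4 :=
    (Real.sqrt_le_sqrt hcent).trans_eq (Real.sqrt_sq (by positivity))
  have hzΩ := hmod _ hth (norm_theta_le (hVV n) (hVs n) hW) fun y hy =>
    (centralises_theta hb.cs D (fun j => (hc j).le) hs hW (by positivity) (hV n) (hVs n) y hy).trans
      (mul_le_mul_of_nonneg_right (by linarith) (norm_nonneg _))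
  have hzM : z n ∈ M := sub_mem (mul_mem ha.1 hth) (mul_mem hth ha.1)
  have hzn : ‖z n‖ ≤ 2 * ‖a‖ := (norm_sub_le _ _).trans (by
    linarith [norm_mul_le_of_le_one' (a := a) (norm_theta_le (hVV n) (hVs n) hW),
      norm_mul_le_of_le_one (b := a) (norm_theta_le (hVV n) (hVs n) hW)])
  have hS : ∑ k, c k * ‖z n (V n k Ω)‖ ^ 2 ≤
      η / 2 + d * (1 / ((n : ℝ) + 1)) * (2 * ‖a‖) ^ 2 := by
    refine (sum_weight_sq_le (by positivity) (hV n) (hVs n) hzM).trans (add_le_add ?_ ?_)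
    · refine (pow_le_pow_left₀ (norm_nonneg _) hzΩ 2).trans_eq ?_
      rw [Real.sq_sqrt (by positivity)]
    · gcongr
  rw [hQn n]
  refine (Finset.sum_le_sum (g := fun k => 2 * (c k * ‖z n (V n k Ω)‖ ^ 2) +
    2 * (c k * ‖z n (V n k Ω) - Q n k‖ ^ 2)) fun k _ => ?_).trans ?_
  · have h := norm_sub_le (z n (V n k Ω)) (z n (V n k Ω) - Q n k)
    rw [sub_sub_cancel] at h
    have : ‖Q n k‖ ^ 2 ≤ 2 * ‖z n (V n k Ω)‖ ^ 2 + 2 * ‖z n (V n k Ω) - Q n k‖ ^ 2 := by
      nlinarith [norm_nonneg (Q n k), sq_nonneg (‖z n (V n k Ω)‖ - ‖z n (V n k Ω) - Q n k‖)]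
    nlinarith [hc k]
  · rw [Finset.sum_add_distrib, ← Finset.mul_sum, ← Finset.mul_sum]
    linarith

end Vale.Agent.P132.Flow
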