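import Vale.Agent.P132.Flow.Inner
import Vale.Agent.P132.Flow.Transfer

/-!
# The flow on the bicentralizer
-/

namespace Vale.Agent.P132.Flow

open scoped InnerProductSpace

universe u

/-- StmtFlow. -/
theorem stmtFlow : Iface.StmtFlow.{u} := by
  intro H _ _ _ M Ω D hcs h3 hh
  have hb : Base M Ω D :=
    ⟨hcs, stmtWeight.{u} H M Ω hcs h3 hh, Fixed.closed_of_bic stmtBic.{u} hcs⟩
  exact ⟨{
    beta := beta M Ω
    mem := fun c a hc hc1 ha => beta_bic hb ha hc hc1
    norm_le := fun c a hc hc1 ha => norm_beta_le hb ha hc hc1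
    one := fun a ha => beta_one hb ha
    comp := fun c e a hc hc1 he he1 ha => beta_comp hb ha hc hc1 he he1
    add := fun c a b hc hc1 ha hb' => beta_add hb ha hc hc1 hb'
    smul := fun c z a hc hc1 ha => beta_smul hb ha hc hc1 z
    mul := fun c a b hc hc1 ha hb' => beta_mul hb ha hc hc1 hb'
    star_eq := fun c a hc hc1 ha => beta_star hb ha hc hc1
    inner_eq := fun c a b hc hc1 ha hb' => inner_beta hb h3 hh ha hb' hc hc1
    sigma := fun c t a hc hc1 ha => beta_sigma hb ha hc hc1 t
    cont := fun a ha => cont_beta hb ha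
    transfer := fun a ha η hη => transfer hb ha h3 hh hη }⟩

end Vale.Agent.P132.Flow
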