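import Vale.Agent.P132.Scalar.Main

/-!
# Isometries of prescribed weights, and the modulus of a bicentralizer element
-/

namespace Vale.Agent.P132.Flow

open scoped InnerProductSpace Topology ComplexOrder ComplexConjugate
open Filter Scalar

universe u

variable {H : Type u} [NormedAddCommGroup H] [InnerProductSpace ℂ H] [CompleteSpace H]
  {M : VonNeumannAlgebra H} {Ω : H}

theorem smul_mem_M (z : ℂ) {x : H →L[ℂ] H} (hx : x ∈ M) : z • x ∈ M :=
  M.toStarSubalgebra.smul_mem hx z

theorem centralises_smul {w : H →L[ℂ] H} {δ : ℝ} (h : Centralises M (vecState Ω) w δ) (z : ℂ) :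
    Centralises M (vecState Ω) (z • w) (‖z‖ * δ) := by
  intro y hy
  rw [mul_smul_comm, smul_mul_assoc, map_smul, map_smul, ← smul_sub, norm_smul, mul_assoc]
  exact mul_le_mul_of_nonneg_left (h y hy) (norm_nonneg z)

/-- The modulus of an element of the bicentralizer. -/
theorem modulus {a : H →L[ℂ] H} (ha : InBicentralizer M (vecState Ω) a) (C : ℝ) {η : ℝ}
    (hη : 0 < η) : ∃ δ : ℝ, 0 < δ ∧ ∀ w ∈ M, ‖w‖ ≤ C → Centralises M (vecState Ω) w δ →
      ‖(a * w - w * a) Ω‖ ≤ η := by
  by_contra hno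
  push Not at hno
  have h : ∀ n : ℕ, ∃ w, w ∈ M ∧ ‖w‖ ≤ C ∧ Centralises M (vecState Ω) w (1 / ((n : ℝ) + 1)) ∧
      η < ‖(a * w - w * a) Ω‖ := fun n => hno _ (by positivity)
  choose w hw1 hw2 hw3 hw4 using h
  have hlim := (ha.2 w hw1 ⟨C, hw2⟩ fun δ hδ => ?_) Ω
  · obtain ⟨n, hn⟩ := ((tendsto_zero_iff_norm_tendsto_zero.1 hlim).eventually
      (gt_mem_nhds hη)).exists
    exact lt_irrefl _ ((hw4 n).trans hn)
  · filter_upwards [tendsto_one_div_add_atTop_nhds_zero_nat.eventually (gt_mem_nhds hδ)] with n hn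
    exact fun y hy => (hw3 n y hy).trans (mul_le_mul_of_nonneg_right hn.le (norm_nonneg y))

theorem exists_split (h3 : IsTypeIII M) :
    ∃ S₁ S₂ : H →L[ℂ] H, S₁ ∈ M ∧ S₂ ∈ M ∧ star S₁ * S₁ = 1 ∧ star S₂ * S₂ = 1 ∧
      star S₁ * S₂ = 0 ∧ star S₂ * S₁ = 0 ∧ S₁ * star S₁ + S₂ * star S₂ = 1 := by
  obtain ⟨p, hp, hpp, hp0, hp1⟩ := h3.proper
  have hq : IsStarProjection (1 - p) := hpp.one_sub
  obtain ⟨S₁, h1, h11, h12⟩ := h3.equiv_one p hp hpp hp0
  obtain ⟨S₂, h2, h21, h22⟩ := h3.equiv_one (1 - p) (sub_mem (one_mem M) hp) hq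
    (sub_ne_zero.2 (Ne.symm hp1))
  have hpq : p * (1 - p) = 0 := by rw [mul_sub, mul_one, hpp.isIdempotentElem.eq, sub_self]
  have h12' : star S₁ * S₂ = 0 := by
    calc star S₁ * S₂ = (star S₁ * S₁) * star S₁ * S₂ * (star S₂ * S₂) := by
          rw [h11, h21, one_mul, mul_one]
      _ = star S₁ * ((S₁ * star S₁) * (S₂ * star S₂)) * S₂ := by noncomm_ring
      _ = 0 := by rw [h12, h22, hpq]; simp
  refine ⟨S₁, S₂, h1, h2, h11, h21, h12', ?_, by rw [h12, h22, add_sub_cancel]⟩
  have := congrArg star h12'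
  simpa [star_mul] using this

theorem exists_family (h3 : IsTypeIII M) : ∀ n : ℕ, ∃ S : Fin (n + 1) → H →L[ℂ] H,
    (∀ j, S j ∈ M) ∧ (∀ j k, star (S j) * S k = if j = k then 1 else 0) ∧
      ∑ j, S j * star (S j) = 1 := by
  intro n
  induction n with
  | zero =>
    exact ⟨fun _ => 1, fun _ => one_mem M, fun j k => by simp [Fin.fin_one_eq_zero j, Fin.fin_one_eq_zero k], by simp⟩
  | succ n ih =>
    obtain ⟨S', h1, h2, h4⟩ := ih
    obtain ⟨T, R, hT, hR, hT1, hR1, hTR, hRT, hsum⟩ := exists_split h3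
    refine ⟨Fin.cons T fun j => R * S' j, Fin.cases hT (fun j => mul_mem hR (h1 j)), ?_, ?_⟩
    · intro j k
      induction j using Fin.cases with
      | zero =>
        induction k using Fin.cases with
        | zero => simp [hT1]
        | succ k => simp [← mul_assoc, hTR, (Fin.succ_ne_zero k).symm]
      | succ j =>
        induction k using Fin.cases with
        | zero => simp [star_mul, mul_assoc, hRT, Fin.succ_ne_zero]
        | succ k =>
          simp only [Fin.cons_succ, star_mul, Fin.succ_inj]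
          rw [mul_assoc, ← mul_assoc (star R), hR1, one_mul, h2]
    · rw [Fin.sum_univ_succ]
      simp only [Fin.cons_zero, Fin.cons_succ, star_mul]
      rw [show (∑ x, R * S' x * (star (S' x) * star R)) = R * (∑ x, S' x * star (S' x)) * star R from
        by simp only [Finset.mul_sum, Finset.sum_mul, mul_assoc], h4, mul_one, hsum]

/-- The mixture of the vector states of `ξ j`. -/
noncomputable def mix {d : ℕ} (c : Fin d → ℝ) (ξ : Fin d → H) : (H →L[ℂ] H) →ₗ[ℂ] ℂ :=
  ∑ j, (c j : ℂ) • vecState (ξ j)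

omit [CompleteSpace H] in
theorem mix_apply {d : ℕ} (c : Fin d → ℝ) (ξ : Fin d → H) (y : H →L[ℂ] H) :
    mix c ξ y = ∑ j, (c j : ℂ) * ⟪ξ j, y (ξ j)⟫_ℂ := by
  simp [mix, LinearMap.sum_apply, vecState_apply]

/-- Isometries with orthogonal ranges of total sum one and given weights. -/
theorem exists_theta (hcs : IsCS M Ω) (h3 : IsTypeIII M) (hh : IsHomogeneous M) {d : ℕ}
    {c : Fin d → ℝ} (hc : ∀ j, 0 < c j) (hs : ∑ j, c j = 1) {δ : ℝ} (hδ : 0 < δ) :
    ∃ V : Fin d → H →L[ℂ] H, (∀ j, HasWeight M Ω (V j) (c j) δ) ∧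
      (∀ j k, star (V j) * V k = if j = k then 1 else 0) ∧ ∑ j, V j * star (V j) = 1 := by
  classical
  obtain ⟨n, rfl⟩ : ∃ n, d = n + 1 := by
    rcases d with _ | n
    · simp at hs
    · exact ⟨n, rfl⟩
  obtain ⟨S, hS, hSS, hSum⟩ := exists_family h3 n
  have hiso : ∀ j, star (S j) * S j = 1 := fun j => by simp [hSS]
  set g := mix c (fun j => S j Ω) with hg
  have gS : ∀ j, ∀ z : H →L[ℂ] H, g (S j * z) = (c j : ℂ) * ⟪Ω, z (S j Ω)⟫_ℂ := by
    intro j z
    rw [hg, mix_apply, Finset.sum_eq_single j]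
    · simp only [mul_apply_eq_comp]
      rw [← inner_star, star_isom_apply (hiso j)]
    · intro k _ hk
      simp only [mul_apply_eq_comp]
      rw [← inner_star]
      have h := congrArg (fun f : H →L[ℂ] H => f (z (S k Ω))) (hSS k j)
      simp only [if_neg hk, mul_apply_eq_comp, zero_apply] at h
      rw [h]; simp
    · simp
  have hstate : IsState M g := by
    refine ⟨fun ε hε => ⟨Finset.univ.image fun j => S j Ω, ε, hε, fun y _ _ hF => ?_⟩,
      fun y _ => ?_, ?_, fun y hy h0 => ?_⟩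
    · rw [hg, mix_apply]
      refine (norm_sum_le _ _).trans ((Finset.sum_le_sum fun j _ => ?_).trans_eq
        (b := ∑ j, c j * ε) ?_)
      · rw [norm_mul, Complex.norm_real, Real.norm_of_nonneg (hc j).le]
        refine mul_le_mul_of_nonneg_left ((norm_inner_le_norm _ _).trans ?_) (hc j).le
        rw [norm_isom_apply (hiso j), hcs.norm, one_mul]
        exact hF _ (Finset.mem_image_of_mem _ (Finset.mem_univ j))
      · rw [← Finset.sum_mul, hs, one_mul]
    · rw [hg, mix_apply]
      refine Finset.sum_nonneg fun j _ => ?_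
      rw [mul_apply_eq_comp, inner_star, inner_self_eq_norm_sq_to_K]
      have := Complex.zero_le_real.2 (mul_nonneg (hc j).le (sq_nonneg ‖y (S j Ω)‖))
      simpa using this
    · rw [hg, mix_apply]
      simp only [one_apply_eq_self, inner_self_eq_norm_sq_to_K, norm_isom_apply (hiso _), hcs.norm]
      simp [← Complex.ofReal_sum, hs]
    · rw [hg, mix_apply] at h0
      have h1 : ∑ j, c j * ‖y (S j Ω)‖ ^ 2 = 0 := by
        have h2 := congrArg Complex.re h0
        simp only [mul_apply_eq_comp, inner_star, inner_self_eq_norm_sq_to_K, Complex.re_sum,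
          Complex.zero_re] at h2
        simpa [← Complex.ofReal_pow] using h2
      have h2 : ∀ j, y * S j = 0 := by
        intro j
        have := (Finset.sum_eq_zero_iff_of_nonneg fun k _ =>
          mul_nonneg (hc k).le (sq_nonneg _)).1 h1 j (Finset.mem_univ j)
        refine hcs.separating _ (mul_mem hy (hS j)) ?_
        simpa [(hc j).ne'] using this
      calc y = y * ∑ j, S j * star (S j) := by rw [hSum, mul_one]
        _ = 0 := by simp [Finset.mul_sum, ← mul_assoc, h2]
  obtain ⟨u, hu, hu1, hu2, hu4⟩ := hh _ _ (isState_vecState hcs.norm hcs.separating) hstate δ hδ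
  have hV : ∀ j k, star (star u * S j) * (star u * S k) = if j = k then 1 else 0 := by
    intro j k
    rw [star_mul, star_star, mul_assoc, ← mul_assoc u, hu2, one_mul, hSS]
  refine ⟨fun j => star u * S j, fun j => ⟨mul_mem (star_mem hu) (hS j), ?_, fun y hy => ?_⟩, hV, ?_⟩
  · exact (hV j j).trans (if_pos rfl)
  · have hz : S j * (y * star u) ∈ M := mul_mem (hS j) (mul_mem hy (star_mem hu))
    have h := hu4 _ hz
    have e : star u * (S j * (y * star u)) * u = star u * S j * y := by
      calc _ = star u * S j * y * (star u * u) := by noncomm_ring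
        _ = _ := by rw [hu1, mul_one]
    rw [e, gS, vecState_apply] at h
    simp only [mul_apply_eq_comp] at h ⊢
    refine h.trans (mul_le_mul_of_nonneg_left ?_ hδ.le)
    have hu' : ‖star u‖ ≤ 1 := by rw [norm_star]; exact norm_isom_le hu1
    exact (norm_mul_le_of_le_one (norm_isom_le (hiso j))).trans (norm_mul_le_of_le_one' hu')
  · calc ∑ j, star u * S j * star (star u * S j) = star u * (∑ j, S j * star (S j)) * u := by
          simp only [star_mul, star_star, Finset.mul_sum, Finset.sum_mul, mul_assoc]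
      _ = 1 := by rw [hSum, mul_one, hu1]

/-- StmtWeight. -/
theorem stmtWeight.{v} : Iface.StmtWeight.{v} := by
  intro H _ _ _ M Ω hcs h3 hh c δ hc hc1 hδ
  rcases eq_or_lt_of_le hc1 with rfl | hlt
  · exact ⟨1, one_mem M, by simp, fun y _ => by simp; positivity⟩
  · obtain ⟨V, hV, -, -⟩ := exists_theta hcs h3 hh (c := ![c, 1 - c])
      (fun j => by fin_cases j <;> simp <;> linarith) (by simp) hδ
    exact ⟨V 0, hV 0⟩

end Vale.Agent.P132.Flow
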